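import Crest.Agent.R046.Tiles

/-! Height functions, cyclic clause tiles, role-swap tiles and the counting lemma. -/

set_option autoImplicit false

namespace Crest.Agent.R046

open Finset

theorem cyc_fix {N : ℕ} [NeZero N] {β : Type} [Nonempty β] (f : ZMod N → β → β) (i₀ : ZMod N)
    (h : ∀ b b', f i₀ b = f i₀ b') : ∃! b : ZMod N → β, ∀ i, b i = f (i - 1) (b (i - 1)) := by
  let T : (ZMod N → β) → (ZMod N → β) := fun b i => f (i - 1) (b (i - 1))
  have key : ∀ s : ℕ, ∀ b b', ∀ t : ℕ, t < s → T^[s] b (i₀ + 1 + t) = T^[s] b' (i₀ + 1 + t) := by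
    intro s
    induction s with
    | zero => intro b b' t ht; omega
    | succ s ih =>
      intro b b' t ht
      rw [Function.iterate_succ_apply', Function.iterate_succ_apply']
      simp only [T]
      cases t with
      | zero =>
        have : i₀ + 1 + ((0 : ℕ) : ZMod N) - 1 = i₀ := by simp
        rw [this]; exact h _ _
      | succ t =>
        have : i₀ + 1 + ((t + 1 : ℕ) : ZMod N) - 1 = i₀ + 1 + t := by push_cast; ring
        rw [this]
        exact congrArg _ (ih b b' t (by omega))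
  have const : ∀ b b', T^[N] b = T^[N] b' := by
    intro b b'
    funext i
    have := key N b b' (i - i₀ - 1).val (ZMod.val_lt _)
    rw [ZMod.natCast_zmod_val] at this
    have e : i₀ + 1 + (i - i₀ - 1) = i := by ring
    rwa [e] at this
  obtain ⟨b₀⟩ : Nonempty (ZMod N → β) := inferInstance
  have hfix : T (T^[N] b₀) = T^[N] b₀ := by
    rw [← Function.iterate_succ_apply' T N b₀, Function.iterate_succ_apply]
    exact const _ _
  refine ⟨T^[N] b₀, fun i => (congrFun hfix i).symm, fun b hb => ?_⟩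
  have hb' : T b = b := funext fun i => (hb i).symm
  rw [← Function.iterate_fixed hb' N]
  exact const _ _

section
variable {G : Type} [AddCommGroup G] {ι : Type} [Fintype ι] [DecidableEq ι] {m : ι → ℕ}
  [∀ f, NeZero (m f)]

abbrev KK (m : ι → ℕ) := ∀ f, ZMod (m f)

def box (e : ι → G) (k : KK m) : G := ∑ f, (k f).val • e f

/-- `Δ` is the height function of `A` -/
def IsHt (e : ι → G) (A : Set G) (Δ : G → KK m) : Prop := ∀ x k, x - box e k ∈ A ↔ k = Δ x

variable {e : ι → G} {A : Set G} {Δ : G → KK m}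

omit [DecidableEq ι] [∀ f, NeZero (m f)] in
theorem exists_isHt (h : Tiles (box e : KK m → G) A) : ∃ Δ : G → KK m, IsHt e A Δ := by
  choose Δ h1 h2 using h
  exact ⟨Δ, fun x k => ⟨h2 x k, fun hk => hk ▸ h1 x⟩⟩

omit [DecidableEq ι] [∀ f, NeZero (m f)] in
theorem IsHt.tiles (h : IsHt e A Δ) : Tiles (box e : KK m → G) A := fun x =>
  ⟨Δ x, (h x _).2 rfl, fun k hk => (h x k).1 hk⟩

theorem val_add_smul {n : ℕ} [NeZero n] {g : G} (hg : n • g = 0) (a b : ZMod n) :
    (a + b).val • g = a.val • g + b.val • g := by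
  rw [← add_smul, ZMod.val_add]
  conv_rhs => rw [← Nat.mod_add_div (a.val + b.val) n, add_smul, mul_comm, mul_smul, hg]
  simp

omit [DecidableEq ι] in
theorem box_add (k κ : KK m) (hκ : ∀ f, κ f ≠ 0 → m f • e f = 0) :
    box e (k + κ) = box e k + box e κ := by
  simp only [box, ← Finset.sum_add_distrib]
  refine Finset.sum_congr rfl fun f _ => ?_
  by_cases h : κ f = 0
  · simp [h]
  · exact val_add_smul (hκ f h) _ _

omit [DecidableEq ι] in
theorem IsHt.shift (h : IsHt e A Δ) (x : G) (κ : KK m) (hκ : ∀ f, κ f ≠ 0 → m f • e f = 0) :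
    Δ (x + box e κ) = Δ x + κ := by
  symm
  rw [← h, box_add _ _ hκ]
  have := (h x _).2 rfl
  convert this using 1; abel

omit [∀ f, NeZero (m f)] in
theorem box_single (f : ι) (c : ZMod (m f)) :
    box e (Pi.single f c : KK m) = c.val • e f := by
  rw [box, Finset.sum_eq_single f]
  · simp
  · intro f' _ hf; simp [Pi.single_eq_of_ne hf]
  · simp

theorem IsHt.shift_single (h : IsHt e A Δ) (x : G) (f : ι) (c : ZMod (m f))
    (hf : m f • e f = 0) : Δ (x + c.val • e f) = Δ x + Pi.single f c := by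
  rw [← box_single, h.shift]
  intro f' hf'
  by_cases hff : f' = f
  · rw [hff]; exact hf
  · exact absurd (Pi.single_eq_of_ne hff _) hf'

omit [DecidableEq ι] [∀ f, NeZero (m f)] in
theorem IsHt.per (h : IsHt e A Δ) {w : G} (hw : ∀ a ∈ A, a + w ∈ A) (x : G) :
    Δ (x + w) = Δ x := by
  symm
  rw [← h]
  have := hw _ ((h x _).2 rfl)
  convert this using 1; abel

/-- coordinate `f` of `Δ` does not change from `x` to `x - g` -/
def Inv (Δ : G → KK m) (f : ι) (g x : G) : Prop := Δ (x - g) f = Δ x f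

def nand (e : ι → G) {N : ℕ} [NeZero N] (ν : ZMod N → ι) (g : ZMod N → G) (k : KK m) : G :=
  box e k + ∑ i, if k (ν (i - 1)) = 0 then g i else 0

def Valid (e : ι → G) (Δ : G → KK m) {N : ℕ} (ν : ZMod N → ι) (g : ZMod N → G) : Prop :=
  (∀ i, m (ν i) • e (ν i) = 0) ∧ (∀ i i', i ≠ i' → ∀ x, Inv Δ (ν i) (g i') x) ∧
    ∀ x, ∃ i, Inv Δ (ν i) (g i) x

omit [Fintype ι] [DecidableEq ι] [∀ f, NeZero (m f)] in
theorem inv_sum {I : Type} [DecidableEq I] (f : ι) (g : I → G) (s : Finset I)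
    (h : ∀ i ∈ s, ∀ x, Inv Δ f (g i) x) (x : G) : Inv Δ f (∑ i ∈ s, g i) x := by
  induction s using Finset.induction_on generalizing x with
  | empty => simp [Inv]
  | insert i s hi ih =>
    rw [Finset.sum_insert hi]
    have h1 := h i (Finset.mem_insert_self _ _) x
    have h2 := ih (fun j hj => h j (Finset.mem_insert_of_mem hj)) (x - g i)
    simp only [Inv] at h1 h2 ⊢
    rw [← sub_sub, h2, h1]

omit [Fintype ι] [DecidableEq ι] [∀ f, NeZero (m f)] in
theorem inv_sum_univ {I : Type} [DecidableEq I] [Fintype I] (f : ι) (g : I → G) (i : I)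
    (h : ∀ i', i ≠ i' → ∀ x, Inv Δ f (g i') x) (x : G) :
    Δ (x - ∑ j, g j) f = Δ (x - g i) f := by
  rw [← Finset.add_sum_erase _ _ (Finset.mem_univ i), ← sub_sub]
  exact inv_sum f g _ (fun j hj => h j (Finset.ne_of_mem_erase hj).symm) _

omit [DecidableEq ι] [∀ f, NeZero (m f)] in
theorem nand_iff (h : IsHt e A Δ) {N : ℕ} [NeZero N] (ν : ZMod N → ι) (g : ZMod N → G) (x : G)
    (k : KK m) : x - nand e ν g k ∈ A ↔
      k = Δ (x - ∑ i, if k (ν (i - 1)) = 0 then g i else 0) := by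
  rw [← h, nand]
  have : ∀ a b : G, x - (a + b) = x - b - a := fun a b => by abel
  rw [this]

omit [DecidableEq ι] in
theorem nand_nec (h : IsHt e A Δ) {N : ℕ} [NeZero N] (ν : ZMod N → ι) (g : ZMod N → G)
    (ht : ∀ i, m (ν i) • e (ν i) = 0) (hT : Tiles (nand e ν g : KK m → G) A) (x : G) :
    ∃ i, Inv Δ (ν i) (∑ j, g j) x := by
  classical
  by_contra hc
  push Not at hc
  let κ : KK m := fun f => if m f • e f = 0 then -Δ (x - ∑ j, g j) f else 0
  have hκ : ∀ f, κ f ≠ 0 → m f • e f = 0 := by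
    intro f hf
    by_contra h0
    exact hf (if_neg h0)
  have hκ' : ∀ i, κ (ν i) = -Δ (x - ∑ j, g j) (ν i) := fun i => if_pos (ht i)
  have e1 : Δ (x + box e κ - ∑ j, g j) = Δ (x - ∑ j, g j) + κ := by
    rw [← h.shift _ _ hκ]; congr 1; abel
  have e2 : Δ (x + box e κ) = Δ x + κ := h.shift _ _ hκ
  have z1 : ∀ i, Δ (x + box e κ - ∑ j, g j) (ν i) = 0 := by
    intro i; rw [e1, Pi.add_apply, hκ', add_neg_cancel]
  have z2 : ∀ i, Δ (x + box e κ) (ν i) ≠ 0 := by
    intro i h0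
    rw [e2, Pi.add_apply, hκ', add_neg_eq_zero] at h0
    exact hc i h0.symm
  have s1 := (nand_iff h ν g (x + box e κ) (Δ (x + box e κ - ∑ j, g j))).2 (by simp [z1])
  have s2 := (nand_iff h ν g (x + box e κ) (Δ (x + box e κ))).2 (by simp [z2])
  have := (hT _).unique s1 s2
  exact z2 0 (this ▸ z1 0)

omit [DecidableEq ι] [∀ f, NeZero (m f)] in
theorem nand_suff (h : IsHt e A Δ) {N : ℕ} [NeZero N] (ν : ZMod N → ι) (g : ZMod N → G)
    (hv : Valid e Δ ν g) : Tiles (nand e ν g : KK m → G) A := by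
  intro x
  obtain ⟨-, hinv, hbrk⟩ := hv
  obtain ⟨i₀, hi₀⟩ := hbrk x
  let f : ZMod N → Bool → Bool := fun i b => decide (Δ (x - if b then g i else 0) (ν i) = 0)
  obtain ⟨b, hb, hu⟩ := cyc_fix f i₀ (by
    intro b b'
    simp only [Inv] at hi₀
    cases b <;> cases b' <;> simp [f, hi₀])
  have hS : ∀ (b : ZMod N → Bool) (i : ZMod N),
      Δ (x - ∑ j, if b j then g j else 0) (ν i) = Δ (x - if b i then g i else 0) (ν i) := by
    intro b i
    refine inv_sum_univ (ν i) (fun j => if b j then g j else 0) i (fun i' hi' z => ?_) x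
    by_cases hb : b i' = true
    · simpa [hb] using hinv i i' hi' z
    · simp [hb, Inv]
  refine ⟨Δ (x - ∑ j, if b j then g j else 0), ?_, ?_⟩
  · show x - nand e ν g _ ∈ A
    rw [nand_iff h]
    congr 2
    refine Finset.sum_congr rfl fun i _ => ?_
    rw [hS, hb i]
    simp [f]
  · intro k hk
    rw [nand_iff h] at hk
    have : (fun i => decide (k (ν (i - 1)) = 0)) = b := by
      apply hu
      intro i
      simp only [f]
      rw [← hS (fun i => decide (k (ν (i - 1)) = 0))]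
      simp only [decide_eq_true_eq]
      rw [← hk]
    rw [hk, ← this]
    simp only [decide_eq_true_eq]

def etile (e : ι → G) (τ ρ : ι) (h d : G) (k : KK m) : G :=
  box e k - (k τ).val • e τ + (k τ).val • h + (k ρ).val • d

def ECond (Δ : G → KK m) (τ ρ : ι) (h d : G) : Prop :=
  ∀ x, ∃! p : ZMod (m τ) × ZMod (m ρ),
    Δ (x - p.1.val • h - p.2.val • d) τ = 0 ∧ Δ (x - p.1.val • h - p.2.val • d) ρ = p.2

theorem etile_iff (hH : IsHt e A Δ) {τ ρ : ι} (hτ : m τ • e τ = 0) (hne : ρ ≠ τ) (h d : G) :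
    Tiles (etile e τ ρ h d : KK m → G) A ↔ ECond Δ τ ρ h d := by
  have key : ∀ x (k : KK m), x - etile e τ ρ h d k ∈ A ↔
      k = Δ (x - (k τ).val • h - (k ρ).val • d) + Pi.single τ (k τ) := by
    intro x k
    rw [← hH.shift_single _ _ _ hτ, ← hH, etile]
    have : x - (box e k - (k τ).val • e τ + (k τ).val • h + (k ρ).val • d)
      = x - (k τ).val • h - (k ρ).val • d + (k τ).val • e τ - box e k := by abel
    rw [this]
  have k1 : ∀ x (k : KK m), k = Δ (x - (k τ).val • h - (k ρ).val • d) + Pi.single τ (k τ) →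
      Δ (x - (k τ).val • h - (k ρ).val • d) τ = 0 ∧
        Δ (x - (k τ).val • h - (k ρ).val • d) ρ = k ρ := by
    intro x k hk
    have h1 := congrFun hk τ
    have h2 := congrFun hk ρ
    simp only [Pi.add_apply, Pi.single_eq_same, Pi.single_eq_of_ne hne, add_zero] at h1 h2
    exact ⟨by simpa using h1.symm, h2.symm⟩
  have k2 : ∀ x (p : ZMod (m τ) × ZMod (m ρ)), Δ (x - p.1.val • h - p.2.val • d) τ = 0 →
      Δ (x - p.1.val • h - p.2.val • d) ρ = p.2 →
      (Δ (x - p.1.val • h - p.2.val • d) + Pi.single τ p.1 : KK m) τ = p.1 ∧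
      (Δ (x - p.1.val • h - p.2.val • d) + Pi.single τ p.1 : KK m) ρ = p.2 := by
    intro x p h1 h2
    simp [h1, h2, Pi.single_eq_of_ne hne]
  constructor
  · intro hT x
    obtain ⟨k, hk, hu⟩ := hT x
    refine ⟨(k τ, k ρ), k1 x k ((key x k).1 hk), fun p hp => ?_⟩
    obtain ⟨a1, a2⟩ := k2 x p hp.1 hp.2
    have := hu _ ((key x (Δ (x - p.1.val • h - p.2.val • d) + Pi.single τ p.1)).2
      (by rw [a1, a2]))
    rw [← this, a1, a2]
  · intro hE x
    obtain ⟨p, hp, hu⟩ := hE x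
    obtain ⟨a1, a2⟩ := k2 x p hp.1 hp.2
    refine ⟨_, (key x (Δ (x - p.1.val • h - p.2.val • d) + Pi.single τ p.1)).2
      (by rw [a1, a2]), fun k hk => ?_⟩
    have hk' := (key x k).1 hk
    have := hu (k τ, k ρ) (k1 x k hk')
    rw [← this]
    exact hk'

/-- the clause equations valid for a reference height function, with moves from `Mv` -/
def Clauses (e : ι → G) (Mv : Set G) (Δ₀ : G → KK m) : Set (KK m → G) :=
  {φ | ∃ l ≤ 48, ∃ (ν : ZMod (l + 1) → ι) (g : ZMod (l + 1) → G),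
    (∀ i, g i ∈ Mv) ∧ Valid e Δ₀ ν g ∧ φ = nand e ν g}

omit [DecidableEq ι] [∀ f, NeZero (m f)] in
theorem clauses_finite {Mv : Set G} (hMv : Mv.Finite) (Δ₀ : G → KK m) :
    (Clauses e Mv Δ₀).Finite := by
  have : Clauses e Mv Δ₀ ⊆ ⋃ l ∈ {l : ℕ | l ≤ 48},
      (fun p : (ZMod (l + 1) → ι) × (ZMod (l + 1) → G) => (nand e p.1 p.2 : KK m → G)) ''
        (Set.univ ×ˢ {g | ∀ i, g i ∈ Mv}) := by
    rintro φ ⟨l, hl, ν, g, hg, -, rfl⟩
    simp only [Set.mem_iUnion]
    exact ⟨l, hl, (ν, g), ⟨trivial, hg⟩, rfl⟩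
  refine Set.Finite.subset (Set.Finite.biUnion (Set.finite_le_nat 48) fun l _ => ?_) this
  exact (Set.finite_univ.prod (Set.Finite.pi' fun _ => hMv)).image _

omit [DecidableEq ι] in
theorem transfer_one (hH : IsHt e A Δ) {Mv : Set G} {Δ₀ : G → KK m}
    (hC : ∀ φ ∈ Clauses e Mv Δ₀, Tiles φ A) {f : ι} {g : G} (hf : m f • e f = 0) (hg : g ∈ Mv)
    (h : ∀ x, Inv Δ₀ f g x) (x : G) : Inv Δ f g x := by
  have hv : Valid e Δ₀ (fun _ : ZMod (0 + 1) => f) (fun _ => g) :=
    ⟨fun _ => hf, fun _ _ _ => h, fun x => ⟨0, h x⟩⟩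
  obtain ⟨i, hi⟩ := nand_nec hH _ _ hv.1
    (hC _ ⟨0, by omega, _, _, fun _ => hg, hv, rfl⟩) x
  simpa using hi

omit [DecidableEq ι] in
theorem transfer (hH : IsHt e A Δ) {Mv : Set G} {Δ₀ : G → KK m}
    (hC : ∀ φ ∈ Clauses e Mv Δ₀, Tiles φ A) {l : ℕ} (hl : l ≤ 48) {ν : ZMod (l + 1) → ι}
    {g : ZMod (l + 1) → G} (hg : ∀ i, g i ∈ Mv) (hv : Valid e Δ₀ ν g) (x : G) :
    ∃ i, Inv Δ (ν i) (g i) x := by
  obtain ⟨i, hi⟩ := nand_nec hH _ _ hv.1 (hC _ ⟨l, hl, _, _, hg, hv, rfl⟩) x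
  refine ⟨i, ?_⟩
  simp only [Inv] at hi ⊢
  rw [← hi]
  exact (inv_sum_univ (ν i) g i
    (fun i' hi' => transfer_one hH hC (hv.1 i) (hg i') (hv.2.1 i i' hi')) x).symm

omit [DecidableEq ι] in
theorem transfer_two (hH : IsHt e A Δ) {Mv : Set G} {Δ₀ : G → KK m}
    (hC : ∀ φ ∈ Clauses e Mv Δ₀, Tiles φ A) {f₀ f₁ : ι} {g₀ g₁ : G}
    (hf₀ : m f₀ • e f₀ = 0) (hf₁ : m f₁ • e f₁ = 0) (hg₀ : g₀ ∈ Mv) (hg₁ : g₁ ∈ Mv)
    (h01 : ∀ x, Inv Δ₀ f₀ g₁ x) (h10 : ∀ x, Inv Δ₀ f₁ g₀ x)
    (h : ∀ x, Inv Δ₀ f₀ g₀ x ∨ Inv Δ₀ f₁ g₁ x) (x : G) : Inv Δ f₀ g₀ x ∨ Inv Δ f₁ g₁ x := by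
  have two : ∀ i : ZMod (1 + 1), i = 0 ∨ i = 1 := by decide
  have ne : (1 : ZMod (1 + 1)) ≠ 0 := by decide
  obtain ⟨i, hi⟩ := transfer hH hC (l := 1) (by omega)
    (ν := fun i => if i = 0 then f₀ else f₁) (g := fun i => if i = 0 then g₀ else g₁)
    (by intro i; split_ifs <;> assumption)
    ⟨by intro i; dsimp only; split_ifs <;> assumption, by
      intro i i' hii x
      rcases two i with rfl | rfl <;> rcases two i' with rfl | rfl
      · exact absurd rfl hii
      · simpa [ne] using h01 x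
      · simpa [ne] using h10 x
      · exact absurd rfl hii, by
      intro x
      rcases h x with h | h
      · exact ⟨0, by simpa using h⟩
      · exact ⟨1, by simpa [ne] using h⟩⟩ x
  rcases two i with rfl | rfl
  · left; simpa using hi
  · right; simpa [ne] using hi

end

section count
variable {G : Type} [AddCommGroup G]

theorem per_nsmul {α : Type} (u : G → α) (w : G) (h : ∀ x, u (x - w) = u x) (n : ℕ) (x : G) :
    u (x - n • w) = u x := by
  induction n with
  | zero => simp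
  | succ n ih => rw [succ_nsmul, ← sub_sub, h, ih]

theorem per_zsmul {α : Type} (u : G → α) (w : G) (h : ∀ x, u (x - w) = u x) (n : ℤ) (x : G) :
    u (x - n • w) = u x := by
  rcases Int.eq_nat_or_neg n with ⟨k, rfl | rfl⟩
  · rw [natCast_zsmul]; exact per_nsmul u w h k x
  · have := per_nsmul u w h k (x - (-(k : ℤ)) • w)
    rw [← this]; congr 1; simp

theorem per_val_add {α : Type} {r : ℕ} [NeZero r] (u : G → α) (d : G)
    (h : ∀ x, u (x - r • d) = u x) (x : G) (w v : ZMod r) :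
    u (x - (w.val + v.val) • d) = u (x - (w + v).val • d) := by
  rw [ZMod.val_add]
  conv_lhs => rw [← Nat.mod_add_div (w.val + v.val) r, add_smul, mul_comm, mul_smul, ← sub_sub]
  exact per_nsmul u _ h _ _

open Classical in
theorem gadget_count {q r : ℕ} [NeZero q] [NeZero r] (a : G → ZMod q) (y : G → ZMod r)
    (h d e : G) (Ty : G → Prop)
    (hE : ∀ x, ∃! p : ZMod q × ZMod r,
      a (x - p.1.val • h - p.2.val • d) = 0 ∧ y (x - p.1.val • h - p.2.val • d) = p.2)
    (hae : ∀ x (c : ZMod q), a (x + c.val • e) = a x + c)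
    (hye : ∀ x (c : ZMod q), y (x + c.val • e) = y x)
    (had : ∀ x, a (x - r • d) = a x) (hyd : ∀ x, y (x - r • d) = y x)
    (hTy : ∀ x, Ty (x - h) ↔ Ty x)
    (h0 : ∀ x, Ty x → a (x - h) = a x) (h1 : ∀ x, ¬ Ty x → a (x - h) = a x + 1)
    (x : G) (s : ZMod q) :
    #{z : ZMod r | Ty (x - z.val • d)} =
      q * #{z : ZMod r | Ty (x - z.val • d) ∧ a (x - z.val • d) = s} := by
  let a' : ZMod r → ZMod q → ZMod q := fun z t => a (x - t.val • h - z.val • d)
  let y' : ZMod r → ZMod q → ZMod r := fun z t => y (x - t.val • h - z.val • d)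
  have key : ∀ w : ZMod r, ∃! p : ZMod q × ZMod r, a' (w + p.2) p.1 = s ∧ y' (w + p.2) p.1 = p.2 := by
    intro w
    have := hE (x - w.val • d + (-s).val • e)
    have e1 : ∀ p : ZMod q × ZMod r, x - w.val • d + (-s).val • e - p.1.val • h - p.2.val • d
        = x - p.1.val • h - (w.val + p.2.val) • d + (-s).val • e := by
      intro p; rw [add_smul]; abel
    simp only [e1, hae, hye, per_val_add a d had, per_val_add y d hyd, add_neg_eq_zero] at this
    exact this
  have c1 : #{p : ZMod r × ZMod q | a' p.1 p.2 = s} = r := by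
    have : #{p : ZMod r × ZMod q | a' p.1 p.2 = s} = #(univ : Finset (ZMod r)) := by
      refine Finset.card_bij (fun p _ => p.1 - y' p.1 p.2) (fun _ _ => mem_univ _) ?_ ?_
      · rintro ⟨z, t⟩ hp ⟨z', t'⟩ hp' he
        simp only [mem_filter, mem_univ, true_and] at hp hp' he
        have := (key (z - y' z t)).unique (y₁ := (t, y' z t)) (y₂ := (t', y' z' t'))
          (by simp [hp]) (by rw [he]; simp [hp'])
        obtain ⟨h1, h2⟩ := Prod.ext_iff.1 this
        simp only at h1 h2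
        rw [h2] at he
        exact Prod.ext (sub_left_injective he) h1
      · intro w _
        obtain ⟨p, hp, -⟩ := key w
        refine ⟨(w + p.2, p.1), by simpa using hp.1, ?_⟩
        simp [hp.2]
    rw [this, card_univ, ZMod.card]
  have tyn : ∀ (n : ℕ) x, Ty (x - n • h) ↔ Ty x := fun n x =>
    iff_of_eq (per_nsmul Ty h (fun x => propext (hTy x)) n x)
  have a0 : ∀ (n : ℕ) x, Ty x → a (x - n • h) = a x := by
    intro n x hx
    induction n with
    | zero => simp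
    | succ n ih => rw [succ_nsmul, ← sub_sub, h0 _ ((tyn n x).2 hx), ih]
  have a1 : ∀ (n : ℕ) x, ¬ Ty x → a (x - n • h) = a x + n := by
    intro n x hx
    induction n with
    | zero => simp
    | succ n ih =>
      rw [succ_nsmul, ← sub_sub, h1 _ (fun h' => hx ((tyn n x).1 h')), ih]; push_cast; ring
  have c2 : ∀ z : ZMod r, #{t : ZMod q | a' z t = s} =
      (if Ty (x - z.val • d) ∧ a (x - z.val • d) = s then q else 0)
        + (if Ty (x - z.val • d) then 0 else 1) := by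
    intro z
    have e1 : ∀ t : ZMod q, a' z t = a (x - z.val • d - t.val • h) := by
      intro t; simp only [a']; congr 1; abel
    by_cases hz : Ty (x - z.val • d)
    · simp only [e1, a0 _ _ hz, hz, true_and, if_true, add_zero]
      split_ifs with hs
      · simp [hs, ZMod.card]
      · simp [hs]
    · simp only [e1, a1 _ _ hz, hz, false_and, if_false, zero_add, ZMod.natCast_zmod_val]
      rw [Finset.card_eq_one]
      refine ⟨s - a (x - z.val • d), ?_⟩
      ext t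
      simp only [mem_filter, mem_univ, true_and, mem_singleton]
      constructor
      · intro h; rw [← h]; ring
      · intro h; rw [h]; ring
  have c3 : #{p : ZMod r × ZMod q | a' p.1 p.2 = s} = ∑ z, #{t : ZMod q | a' z t = s} := by
    simp only [Finset.card_filter]
    rw [Fintype.sum_prod_type]
  rw [c3] at c1
  simp only [c2, Finset.sum_add_distrib] at c1
  have c4 : (∑ z : ZMod r, if Ty (x - z.val • d) ∧ a (x - z.val • d) = s then q else 0)
      = q * #{z : ZMod r | Ty (x - z.val • d) ∧ a (x - z.val • d) = s} := by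
    rw [Finset.card_filter, Finset.mul_sum]
    refine Finset.sum_congr rfl fun z _ => ?_
    split_ifs <;> simp
  have c5 : #{z : ZMod r | Ty (x - z.val • d)}
      + (∑ z : ZMod r, if Ty (x - z.val • d) then 0 else 1) = r := by
    rw [Finset.card_filter, ← Finset.sum_add_distrib]
    have : ∀ z : ZMod r, ((if Ty (x - z.val • d) then 1 else 0)
      + (if Ty (x - z.val • d) then 0 else 1) : ℕ) = 1 := by
      intro z; split_ifs <;> rfl
    simp [this, ZMod.card]
  omega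

theorem gadget_count' {q r : ℕ} [NeZero q] [NeZero r] (a : G → ZMod q) (y : G → ZMod r)
    (h d e : G) (Ty : G → Prop)
    (hE : ∀ x, ∃! p : ZMod q × ZMod r,
      a (x - p.1.val • h - p.2.val • d) = 0 ∧ y (x - p.1.val • h - p.2.val • d) = p.2)
    (hae : ∀ x (c : ZMod q), a (x + c.val • e) = a x + c)
    (hye : ∀ x (c : ZMod q), y (x + c.val • e) = y x)
    (had : ∀ x, a (x - r • d) = a x) (hyd : ∀ x, y (x - r • d) = y x)
    (hTy : ∀ x, Ty (x - h) ↔ Ty x)
    (h0 : ∀ x, Ty x → a (x - h) = a x) (h1 : ∀ x, ¬ Ty x → a (x - h) = a x + 1)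
    (x : G) (s : ZMod q) :
    ((∀ z : ZMod r, Ty (x - z.val • d)) → q ∣ r) ∧
      ((∃ z : ZMod r, Ty (x - z.val • d)) →
        ∃ z : ZMod r, Ty (x - z.val • d) ∧ a (x - z.val • d) = s) := by
  classical
  have key := gadget_count a y h d e Ty hE hae hye had hyd hTy h0 h1 x s
  constructor
  · intro hall
    rw [Finset.filter_true_of_mem (fun z _ => hall z), card_univ, ZMod.card] at key
    exact ⟨_, key⟩
  · rintro ⟨z, hz⟩
    by_contra hc
    rw [Finset.filter_false_of_mem (p := fun z : ZMod r =>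
      Ty (x - z.val • d) ∧ a (x - z.val • d) = s) (fun z _ hz => hc ⟨z, hz⟩), Finset.card_empty,
      mul_zero, Finset.card_eq_zero, Finset.filter_eq_empty_iff] at key
    exact key (mem_univ z) hz

theorem gadget_nec {q₀ q₁ r : ℕ} [NeZero q₀] [NeZero q₁] [NeZero r] (hq₀ : 1 < q₀) (hq₁ : 1 < q₁)
    (hcop : Nat.Coprime q₁ r)
    (a₀ : G → ZMod q₀) (a₁ : G → ZMod q₁) (y : G → ZMod r) (h₀ h₁ d e₀ e₁ : G)
    (hE₀ : ∀ x, ∃! p : ZMod q₀ × ZMod r,
      a₀ (x - p.1.val • h₀ - p.2.val • d) = 0 ∧ y (x - p.1.val • h₀ - p.2.val • d) = p.2)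
    (hE₁ : ∀ x, ∃! p : ZMod q₁ × ZMod r,
      a₁ (x - p.1.val • h₁ - p.2.val • d) = 0 ∧ y (x - p.1.val • h₁ - p.2.val • d) = p.2)
    (hae₀ : ∀ x (c : ZMod q₀), a₀ (x + c.val • e₀) = a₀ x + c)
    (hye₀ : ∀ x (c : ZMod q₀), y (x + c.val • e₀) = y x)
    (hae₁ : ∀ x (c : ZMod q₁), a₁ (x + c.val • e₁) = a₁ x + c)
    (hye₁ : ∀ x (c : ZMod q₁), y (x + c.val • e₁) = y x)
    (had₀ : ∀ x, a₀ (x - r • d) = a₀ x) (had₁ : ∀ x, a₁ (x - r • d) = a₁ x)
    (hyd : ∀ x, y (x - r • d) = y x)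
    (hi₀ : ∀ x, a₀ (x - h₁) = a₀ x) (hi₁ : ∀ x, a₁ (x - h₀) = a₁ x)
    (C1 : ∀ x, a₀ (x - h₀) = a₀ x ∨ a₁ (x - h₁) = a₁ x)
    (C2 : ∀ x, a₀ (x - h₀) = a₀ x + 1 ∨ a₁ (x - h₁) = a₁ x + 1) (x : G) (s : ZMod q₀) :
    ∃ z : ℕ, (a₀ (x - z • d - h₀) = a₀ (x - z • d) ∧ a₁ (x - z • d - h₁) ≠ a₁ (x - z • d)) ∧
      a₀ (x - z • d) = s := by
  classical
  have : Fact (1 < q₀) := ⟨hq₀⟩
  have : Fact (1 < q₁) := ⟨hq₁⟩
  let Ty : G → Prop := fun x => a₀ (x - h₀) = a₀ x
  have t1 : ∀ x, Ty x ↔ a₁ (x - h₁) = a₁ x + 1 := by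
    intro x
    constructor
    · intro h
      rcases C2 x with h' | h'
      · rw [h] at h'; simp at h'
      · exact h'
    · intro h
      rcases C1 x with h' | h'
      · exact h'
      · rw [h] at h'; simp at h'
  have i0 : ∀ x, Ty (x - h₀) ↔ Ty x := by
    intro x
    rw [t1, t1, sub_right_comm, hi₁, hi₁]
  have i1 : ∀ x, Ty (x - h₁) ↔ Ty x := by
    intro x
    simp only [Ty]
    rw [sub_right_comm, hi₀, hi₀]
  have n0 := (gadget_count' a₀ y h₀ d e₀ Ty hE₀ hae₀ hye₀ had₀ hyd i0 (fun _ h => h)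
    (fun x hx => (C2 x).resolve_right fun h => hx ((t1 x).2 h)) x s).2
  have n1 := (gadget_count' a₁ y h₁ d e₁ (fun x => ¬ Ty x) hE₁ hae₁ hye₁ had₁ hyd
    (fun x => not_congr (i1 x)) (fun x hx => (C1 x).resolve_left hx)
    (fun x hx => (t1 x).1 (not_not.1 hx)) x 0).1
  have hex : ∃ z : ZMod r, Ty (x - z.val • d) := by
    by_contra hc
    push Not at hc
    have := Nat.Coprime.eq_one_of_dvd hcop (n1 hc)
    omega
  obtain ⟨z, h1, h2⟩ := n0 hex
  refine ⟨z.val, ⟨h1, ?_⟩, h2⟩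
  rw [(t1 _).1 h1]; simp

end count

end Crest.Agent.R046
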