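import Mathlib

/-! The 7-adic Sudoku puzzle has no periodic solution. -/

set_option autoImplicit false

namespace Crest.Agent.R046

abbrev Z7 := ZMod 7

instance fact7 : Fact (Nat.Prime 7) := ⟨by norm_num⟩

/-- the digit rule along a line of 49 columns -/
def DRule (d : ℕ → Z7) : Prop :=
  ∃ a b : ℤ, ¬ ((a : Z7) = 0 ∧ (b : Z7) = 0) ∧ ∀ n : ℕ, n < 49 →
    ((((a * n + b : ℤ) : Z7)) ≠ 0 → d n = ((a * n + b : ℤ) : Z7)) ∧
      ∀ w : ℤ, a * n + b = 7 * w → (w : Z7) ≠ 0 → d n = (w : Z7)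

theorem z7_match : ∀ a b u v : Z7, ¬ (a = 0 ∧ b = 0) → u ≠ 0 →
    (∀ n : Z7, u * n + v ≠ 0 → a * n + b ≠ 0 → u * n + v = a * n + b) → a = u ∧ b = v := by
  decide +kernel

theorem z7_three : ∀ n z : Z7, (∀ c : Z7, ∃ a b : Z7, ¬ (a = 0 ∧ b = 0) ∧
    (c ≠ 0 → b ≠ 0 → c = b) ∧ (c ≠ 0 → a + b ≠ 0 → c = a + b) ∧
    (c + z ≠ 0 → a * n + b ≠ 0 → c + z = a * n + b)) → n = 0 ∨ n = 1 ∨ z = 0 := by
  decide +kernel

theorem z7_cast_val (x : Z7) : ((x.val : ℕ) : Z7) = x := ZMod.natCast_zmod_val x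

theorem z7_val_lt (x : Z7) : x.val < 7 := ZMod.val_lt x

theorem avoid_five (r₁ r₂ r₃ r₄ r₅ : Z7) : ∃ t : ℕ, t < 6 ∧ (t : Z7) ≠ r₁ ∧ (t : Z7) ≠ r₂ ∧
    (t : Z7) ≠ r₃ ∧ (t : Z7) ≠ r₄ ∧ (t : Z7) ≠ r₅ := by
  have h1 : ({r₁, r₂, r₃, r₄, r₅} : Finset Z7).card < ({0, 1, 2, 3, 4, 5} : Finset Z7).card := by
    have : ({0, 1, 2, 3, 4, 5} : Finset Z7).card = 6 := by decide
    rw [this]
    exact Nat.lt_succ_of_le Finset.card_le_five
  obtain ⟨x, hx, hx'⟩ := Finset.exists_mem_notMem_of_card_lt_card h1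
  refine ⟨x.val, ?_, ?_⟩
  · clear hx'; revert hx; revert x; decide
  · rw [z7_cast_val]
    simpa only [Finset.mem_insert, Finset.mem_singleton, not_or] using hx'

section step
variable {D : ℕ → ℤ → Z7} {B : Z7}

/-- a steep line through the columns `n₀ + 7 t` -/
theorem steep (hB : B ≠ 0) (hl : ∀ i j : ℤ, DRule fun n => D n (i + n * j))
    (hD : ∀ n : ℕ, n < 49 → ∀ m : ℤ, (m : Z7) ≠ 0 → D n m = B * m)
    (n₀ : ℕ) (hn₀ : n₀ < 7) (μ j : ℤ) (hj : (j : Z7) ≠ 0) :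
    ∃ κ : Z7, ∀ t : ℕ, t < 7 → B * ((μ + t * j : ℤ) : Z7) + κ ≠ 0 →
      D (n₀ + 7 * t) (7 * (μ + t * j)) = B * ((μ + t * j : ℤ) : Z7) + κ := by
  obtain ⟨a, b, hab, h⟩ := hl (7 * μ - n₀ * j) j
  have h7 : (7 : Z7) = 0 := by decide
  have hm := z7_match a b (B * j) (B * ((7 * μ - n₀ * j : ℤ) : Z7)) hab (mul_ne_zero hB hj) (by
    intro n h1 h2
    have hn : n.val < 49 := by have := z7_val_lt n; omega
    have h3 := (h n.val hn).1 (by push_cast; rw [z7_cast_val]; exact h2)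
    have h4 := hD n.val hn (7 * μ - n₀ * j + n.val * j) (by
      intro h0
      apply h1
      push_cast at h0 ⊢
      rw [z7_cast_val] at h0
      linear_combination B * h0)
    simp only at h3
    rw [h4] at h3
    push_cast at h3 ⊢
    rw [z7_cast_val] at h3
    linear_combination h3)
  obtain ⟨ha, hb⟩ := hm
  have hdvd : (7 : ℤ) ∣ a * n₀ + b := by
    have : ((a * n₀ + b : ℤ) : Z7) = 0 := by
      push_cast at hb ⊢
      rw [ha, hb, h7]; ring
    exact (ZMod.intCast_zmod_eq_zero_iff_dvd _ 7).1 this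
  obtain ⟨w₀, hw₀⟩ := hdvd
  refine ⟨(w₀ : Z7) - B * μ, fun t ht hne => ?_⟩
  have e1 : B * ((μ + t * j : ℤ) : Z7) + ((w₀ : Z7) - B * μ) = ((w₀ + a * t : ℤ) : Z7) := by
    push_cast; rw [ha]; ring
  rw [e1] at hne ⊢
  have := (h (n₀ + 7 * t) (by omega)).2 (w₀ + a * t) (by push_cast; linear_combination hw₀) hne
  simp only at this
  rw [← this]
  congr 1
  push_cast; ring

theorem steep_eq (hB : B ≠ 0) {G : ℕ → ℤ → Z7}
    (hG : ∀ μ j : ℤ, (j : Z7) ≠ 0 → ∃ κ : Z7, ∀ t : ℕ, t < 7 →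
      B * ((μ + t * j : ℤ) : Z7) + κ ≠ 0 → G t (μ + t * j) = B * ((μ + t * j : ℤ) : Z7) + κ) :
    ∃ κ : Z7, ∀ t : ℕ, t < 7 → ∀ m : ℤ, B * (m : Z7) + κ ≠ 0 → G t m = B * (m : Z7) + κ := by
  choose! κ hκ using hG
  have diff : ∀ μ j μ' j' : ℤ, (j : Z7) ≠ 0 → (j' : Z7) ≠ 0 → (j : Z7) ≠ (j' : Z7) →
      κ μ j = κ μ' j' := by
    intro μ j μ' j' hj hj' hne
    have hd : (j' : Z7) - j ≠ 0 := sub_ne_zero.2 hne.symm
    obtain ⟨t, ht, t1, t2, t3, t4, t5⟩ := avoid_five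
      (-((μ' : Z7) - μ + j') / (j' - j)) (-(B * μ + κ μ j) / (B * j))
      (-(B * (μ' + j') + κ μ' j') / (B * j')) (-(B * μ + κ μ' j') / (B * j))
      (-(B * (μ' + j') + κ μ j) / (B * j'))
    have hBj := mul_ne_zero hB hj
    have hBj' := mul_ne_zero hB hj'
    rw [Ne, eq_div_iff hd] at t1
    rw [Ne, eq_div_iff hBj] at t2 t4
    rw [Ne, eq_div_iff hBj'] at t3 t5
    set j'' : ℤ := μ' + (t + 1) * j' - (μ + t * j) with hj''
    set μ'' : ℤ := μ + t * j - t * j'' with hμ''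
    have hu : (j'' : Z7) ≠ 0 := by
      intro h0; apply t1; rw [hj''] at h0; push_cast at h0; linear_combination h0
    have p1 : μ'' + t * j'' = μ + t * j := by rw [hμ'']; ring
    have p2 : μ'' + (t + 1 : ℕ) * j'' = μ' + (t + 1 : ℕ) * j' := by
      rw [hμ'', hj'']; push_cast; ring
    have a1 := hκ μ j hj t (by omega) (by
      intro h0; apply t2; push_cast at h0; linear_combination h0)
    have a2 := hκ μ' j' hj' (t + 1) (by omega) (by
      intro h0; apply t3; push_cast at h0; linear_combination h0)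
    have b1 := hκ μ'' j'' hu t (by omega)
    have b2 := hκ μ'' j'' hu (t + 1) (by omega)
    rw [p1, a1] at b1
    rw [p2, a2] at b2
    simp only [add_right_inj] at b1 b2
    by_cases c1 : B * ((μ + t * j : ℤ) : Z7) + κ μ'' j'' = 0
    · by_cases c2 : B * ((μ' + (t + 1 : ℕ) * j' : ℤ) : Z7) + κ μ'' j'' = 0
      · exfalso
        apply mul_ne_zero hB hu
        rw [hj'']
        push_cast at c1 c2 ⊢
        linear_combination c2 - c1
      · exfalso
        apply t4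
        rw [← b2 c2] at c1
        push_cast at c1
        linear_combination c1
    · by_cases c2 : B * ((μ' + (t + 1 : ℕ) * j' : ℤ) : Z7) + κ μ'' j'' = 0
      · exfalso
        apply t5
        rw [← b1 c1] at c2
        push_cast at c2
        linear_combination c2
      · rw [b1 c1, b2 c2]
  refine ⟨κ 0 2, fun t ht m hne => ?_⟩
  have h1 : ((1 : ℤ) : Z7) ≠ 0 := by decide
  have h2 : ((2 : ℤ) : Z7) ≠ 0 := by decide
  have h12 : ((1 : ℤ) : Z7) ≠ ((2 : ℤ) : Z7) := by decide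
  have := hκ (m - t) 1 h1 t ht
  rw [diff (m - t) 1 0 2 h1 h2 h12] at this
  have e : m - t + t * 1 = m := by ring
  rw [e] at this
  exact this hne

theorem kappa_affine (hB : B ≠ 0) {D' : ℕ → ℤ → Z7} {κ : ℕ → Z7}
    (hl : ∀ i j : ℤ, DRule fun n => D' n (i + n * j))
    (hκ : ∀ n : ℕ, n < 7 → ∀ m : ℤ, B * (m : Z7) + κ n ≠ 0 → D' n m = B * (m : Z7) + κ n) :
    ∀ n : ℕ, n < 7 → κ n = (κ 1 - κ 0) * n + κ 0 := by
  intro n hn
  have := z7_three n (κ n - ((κ 1 - κ 0) * n + κ 0)) (by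
    intro c
    obtain ⟨a, b, hab, h⟩ := hl ((c - κ 0) / B).val (-(κ 1 - κ 0) / B).val
    have key : ∀ k : ℕ, k < 7 → c + (κ k - ((κ 1 - κ 0) * k + κ 0)) ≠ 0 → (a : Z7) * k + b ≠ 0 →
        c + (κ k - ((κ 1 - κ 0) * k + κ 0)) = (a : Z7) * k + b := by
      intro k hk h1 h2
      have e : B * (((((c - κ 0) / B).val : ℤ) + k * ((-(κ 1 - κ 0) / B).val : ℤ) : ℤ) : Z7) + κ k
          = c + (κ k - ((κ 1 - κ 0) * k + κ 0)) := by
        push_cast
        rw [z7_cast_val, z7_cast_val]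
        field_simp
        ring
      have h3 := hκ k hk _ (by rw [e]; exact h1)
      have h4 := (h k (by omega)).1 (by push_cast; exact h2)
      simp only at h4
      rw [h3, e] at h4
      rw [h4]; push_cast; rfl
    refine ⟨a, b, hab, ?_, ?_, key n hn⟩
    · have := key 0 (by omega)
      simpa using this
    · have := key 1 (by omega)
      simpa using this)
  rcases this with h | h | h
  · have : n = 0 := by
      have := (ZMod.natCast_eq_zero_iff n 7).1 h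
      omega
    subst this; simp
  · have : n = 1 := by
      have h1 : ((n : ℕ) : Z7) = ((1 : ℕ) : Z7) := by simpa using h
      have := (ZMod.natCast_eq_natCast_iff' n 1 7).1 h1
      omega
    subst this; simp
  · linear_combination h

theorem step (hB : B ≠ 0) (hl : ∀ i j : ℤ, DRule fun n => D n (i + n * j))
    (hD : ∀ n : ℕ, n < 49 → ∀ m : ℤ, (m : Z7) ≠ 0 → D n m = B * m) :
    ∃ A C : Z7, ∀ n : ℕ, n < 49 → ∀ m : ℤ, A * n + B * m + C ≠ 0 → D n (7 * m) = A * n + B * m + C := by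
  have h1 : ∀ n₀ : ℕ, n₀ < 7 → ∃ κ : Z7, ∀ t : ℕ, t < 7 → ∀ m : ℤ, B * (m : Z7) + κ ≠ 0 →
      D (n₀ + 7 * t) (7 * m) = B * (m : Z7) + κ := fun n₀ hn₀ =>
    steep_eq hB (G := fun t m => D (n₀ + 7 * t) (7 * m)) fun μ j hj => steep hB hl hD n₀ hn₀ μ j hj
  choose! κ hκ using h1
  have h2 := kappa_affine hB (D' := fun n m => D n (7 * m)) (κ := κ) (by
    intro i j
    have := hl (7 * i) (7 * j)
    convert this using 3
    ring) (fun n hn m => by simpa using hκ n hn 0 (by omega) m)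
  refine ⟨κ 1 - κ 0, κ 0, fun n hn m hne => ?_⟩
  have h3 := hκ (n % 7) (Nat.mod_lt _ (by omega)) (n / 7) (by omega) m
  rw [Nat.mod_add_div, h2 (n % 7) (Nat.mod_lt _ (by omega)), ZMod.natCast_mod] at h3
  have e : B * (m : Z7) + ((κ 1 - κ 0) * n + κ 0) = (κ 1 - κ 0) * n + B * m + κ 0 := by ring
  rw [e] at h3
  exact h3 hne

end step

theorem descent (P : ℕ) : 0 < P → ∀ (D : ℕ → ℤ → Z7) (A B C : Z7), B ≠ 0 →
    (∀ i j : ℤ, DRule fun n => D n (i + n * j)) →
    (∀ n : ℕ, n < 49 → ∀ m : ℤ, A * n + B * m + C ≠ 0 → D n m = A * n + B * m + C) →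
    ¬ ∀ n : ℕ, n < 49 → ∀ m : ℤ, D n (m + P) = D n m := by
  induction P using Nat.strong_induction_on with
  | _ P ih =>
  intro hP D A B C hB hl hD hper
  -- shear
  set m₀ : ℤ := ((-C / B).val : ℤ) with hm₀
  set s : ℤ := ((-A / B).val : ℤ) with hs
  have em : (m₀ : Z7) = -C / B := by rw [hm₀]; push_cast; exact z7_cast_val _
  have es : (s : Z7) = -A / B := by rw [hs]; push_cast; exact z7_cast_val _
  let D₁ : ℕ → ℤ → Z7 := fun n m => D n (m₀ + n * s + m)
  have hl₁ : ∀ i j : ℤ, DRule fun n => D₁ n (i + n * j) := by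
    intro i j
    have := hl (m₀ + i) (s + j)
    convert this using 3
    ring
  have hD₁ : ∀ n : ℕ, n < 49 → ∀ m : ℤ, (m : Z7) ≠ 0 → D₁ n m = B * m := by
    intro n hn m hm
    have e : A * n + B * ((m₀ + n * s + m : ℤ) : Z7) + C = B * m := by
      push_cast; rw [em, es]; field_simp; ring
    have := hD n hn (m₀ + n * s + m) (by rw [e]; exact mul_ne_zero hB hm)
    rw [e] at this
    exact this
  have hper₁ : ∀ n : ℕ, n < 49 → ∀ m : ℤ, D₁ n (m + P) = D₁ n m := by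
    intro n hn m
    have := hper n hn (m₀ + n * s + m)
    simp only [D₁]
    rw [← this]; congr 1; ring
  have h7 : 7 ∣ P := by
    by_contra h7
    have hP7 : (P : Z7) ≠ 0 := fun h => h7 ((ZMod.natCast_eq_zero_iff P 7).1 h)
    obtain ⟨t, -, t1, t2, -⟩ := avoid_five 0 (-(P : Z7)) 0 0 0
    have a1 := hD₁ 0 (by omega) t (by simpa using t1)
    have a2 := hD₁ 0 (by omega) (t + P) (by
      push_cast; intro h; apply t2; linear_combination h)
    rw [hper₁ 0 (by omega), a1] at a2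
    push_cast at a2
    apply mul_ne_zero hB hP7
    linear_combination -a2
  obtain ⟨P', rfl⟩ := h7
  obtain ⟨A', C', h'⟩ := step hB hl₁ hD₁
  refine ih P' (by omega) (by omega) (fun n m => D₁ n (7 * m)) A' B C' hB ?_ h' ?_
  · intro i j
    have := hl₁ (7 * i) (7 * j)
    convert this using 3
    ring
  · intro n hn m
    have := hper₁ n hn (7 * m)
    rw [← this]; congr 1; push_cast; ring

theorem affine_of_diff {g : ℤ → Z7} {B : Z7} (h : ∀ m, g (m + 1) = g m + B) (m : ℤ) :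
    g m = B * m + g 0 := by
  induction m using Int.induction_on with
  | zero => simp
  | succ n ih => rw [h, ih]; push_cast; ring
  | pred n ih =>
    have := h (-(n : ℤ) - 1)
    rw [sub_add_cancel, ih] at this
    push_cast at this ⊢
    linear_combination -this

theorem three_term {g₀ g₁ g₂ : ℤ → Z7}
    (h : ∀ i j : ℤ, g₀ i - 2 * g₁ (i + j) + g₂ (i + 2 * j) = 0) (m : ℤ) :
    2 * (g₁ (m + 1) - g₁ m) = g₀ 2 - g₀ 0 := by
  have h1 := h 0 m
  have h2 := h 2 (m - 1)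
  have e1 : (2 : ℤ) + (m - 1) = m + 1 := by ring
  have e2 : (2 : ℤ) + 2 * (m - 1) = 0 + 2 * m := by ring
  rw [e1, e2] at h2
  rw [zero_add] at h1
  linear_combination h1 - h2

/-- The symbol set. -/
abbrev Sym := Z7 × Z7

/-- The Sudoku rule for a line. -/
def Rule (τ : ℕ → Sym) : Prop :=
  (∃ α β : Z7, ∀ n : ℕ, n < 49 → (τ n).1 = α * n + β) ∧ (∀ n : ℕ, n < 49 → (τ n).1 ≠ 0 → (τ n).2 = (τ n).1) ∧
    DRule fun n => (τ n).2

theorem sudoku (F : ℕ → ℤ → Sym) (hl : ∀ i j : ℤ, Rule fun n => F n (i + n * j))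
    (hne : ∃ m m', (F 0 m).1 ≠ (F 0 m').1) (P : ℕ) (hP : 0 < P) :
    ¬ ∀ n : ℕ, n < 49 → ∀ m : ℤ, F n (m + P) = F n m := by
  intro hper
  have h2 : (2 : Z7) ≠ 0 := by decide
  choose α β hαβ using fun i j => (hl i j).1
  have q0 : ∀ i j, (F 0 i).1 = β i j := fun i j => by simpa using hαβ i j 0 (by omega)
  have q1 : ∀ i j, (F 1 (i + j)).1 = α i j + β i j := fun i j => by
    simpa using hαβ i j 1 (by omega)
  have q2 : ∀ i j, (F 2 (i + 2 * j)).1 = α i j * 2 + β i j := fun i j => by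
    simpa using hαβ i j 2 (by omega)
  have q3 : ∀ i j, (F 3 (i + 3 * j)).1 = α i j * 3 + β i j := fun i j => by
    simpa using hαβ i j 3 (by omega)
  have t1 := three_term (g₀ := fun m => (F 0 m).1) (g₁ := fun m => (F 1 m).1)
    (g₂ := fun m => (F 2 m).1) (by intro i j; rw [q0 i j, q1, q2]; ring)
  have t2 := three_term (g₀ := fun m => (F 1 m).1) (g₁ := fun m => (F 2 m).1)
    (g₂ := fun m => (F 3 m).1) (by
      intro i j
      have a1 := q1 (i - j) j
      have a2 := q2 (i - j) j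
      have a3 := q3 (i - j) j
      rw [show i - j + j = i by ring] at a1
      rw [show i - j + 2 * j = i + j by ring] at a2
      rw [show i - j + 3 * j = i + 2 * j by ring] at a3
      rw [a1, a2, a3]; ring)
  set B := ((F 0 2).1 - (F 0 0).1) / 2 with hB
  have d1 : ∀ m, (F 1 (m + 1)).1 = (F 1 m).1 + B := by
    intro m; rw [hB, ← t1 m]; field_simp; ring
  have d2 : ∀ m, (F 2 (m + 1)).1 = (F 2 m).1 + B := by
    intro m
    have a1 := d1 0
    have a2 := d1 1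
    have a3 := t2 m
    norm_num at a1 a2
    apply mul_left_cancel₀ h2
    linear_combination a3 + a1 + a2
  have g1 := affine_of_diff (g := fun m => (F 1 m).1) d1
  have g2 := affine_of_diff (g := fun m => (F 2 m).1) d2
  have g0 : ∀ m : ℤ, (F 0 m).1 = B * m + (2 * (F 1 0).1 - (F 2 0).1) := by
    intro m
    have a0 := q0 m 0
    have a1 := q1 m 0
    have a2 := q2 m 0
    have b1 := g1 m
    have b2 := g2 m
    simp only [mul_zero, add_zero] at a1 a2
    linear_combination a0 - 2 * a1 + a2 + 2 * b1 - b2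
  have hB0 : B ≠ 0 := by
    obtain ⟨m, m', h⟩ := hne
    intro h0
    apply h
    rw [g0 m, g0 m', h0]; ring
  have he : ∀ n : ℕ, n < 49 → ∀ m : ℤ, (F n m).1 =
      ((F 2 0).1 - (F 1 0).1) * n + B * m + (2 * (F 1 0).1 - (F 2 0).1) := by
    intro n hn m
    have a := hαβ m 0 n hn
    have a0 := q0 m 0
    have a1 := q1 m 0
    have b0 := g0 m
    have b1 := g1 m
    simp only [mul_zero, add_zero] at a a1
    rw [a]
    linear_combination (n : Z7) * (a0 - a1 + b1 - b0) - a0 + b0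
  refine descent P hP (fun n m => (F n m).2) ((F 2 0).1 - (F 1 0).1) B
    (2 * (F 1 0).1 - (F 2 0).1) hB0 (fun i j => (hl i j).2.2) ?_
    (fun n hn m => by rw [hper n hn m])
  intro n hn m hne'
  have := (hl m 0).2.1 n hn
  simp only [mul_zero, add_zero] at this
  rw [← he n hn m] at hne' ⊢
  exact this hne'

/-- last nonzero digit in base 7 -/
def lastDigit (m : ℤ) : Z7 := if m = 0 then 1 else ((m / 7 ^ padicValInt 7 m : ℤ) : Z7)

/-- the standard solution -/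
def Ftrue (m : ℤ) : Sym := ((m : Z7), lastDigit m)

theorem lastDigit_mul (s : ℕ) (w : ℤ) (hw : (w : Z7) ≠ 0) : lastDigit (7 ^ s * w) = (w : Z7) := by
  have hw0 : w ≠ 0 := by rintro rfl; simp at hw
  have hd : ¬ (7 : ℤ) ∣ w := fun h => hw ((ZMod.intCast_zmod_eq_zero_iff_dvd w 7).2 h)
  have h0 : (7 : ℤ) ^ s * w ≠ 0 := mul_ne_zero (by positivity) hw0
  have hv : padicValInt 7 (7 ^ s * w) = s := by
    rw [padicValInt.mul (by positivity) hw0, padicValInt.eq_zero_of_not_dvd hd]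
    have : padicValInt 7 (7 ^ s) = s := by
      simp only [padicValInt, Int.natAbs_pow]
      exact padicValNat.prime_pow s
    rw [this]; rfl
  rw [lastDigit, if_neg h0, hv, Int.mul_ediv_cancel_left _ (by positivity)]

theorem exists_primitive (N : ℕ) : ∀ i j : ℤ, i.natAbs + j.natAbs = N → ¬ (i = 0 ∧ j = 0) →
    ∃ (s : ℕ) (a b : ℤ), ¬ ((a : Z7) = 0 ∧ (b : Z7) = 0) ∧ i = 7 ^ s * b ∧ j = 7 ^ s * a := by
  induction N using Nat.strong_induction_on with
  | _ N ih =>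
  intro i j hN h0
  by_cases h : (j : Z7) = 0 ∧ (i : Z7) = 0
  · obtain ⟨j', rfl⟩ := (ZMod.intCast_zmod_eq_zero_iff_dvd j 7).1 h.1
    obtain ⟨i', rfl⟩ := (ZMod.intCast_zmod_eq_zero_iff_dvd i 7).1 h.2
    push_cast at hN h0 ⊢
    obtain ⟨s, a, b, hab, h1, h2⟩ := ih (i'.natAbs + j'.natAbs) (by omega) i' j' rfl (by omega)
    exact ⟨s + 1, a, b, hab, by rw [h1]; ring, by rw [h2]; ring⟩
  · exact ⟨0, j, i, h, by simp, by simp⟩

theorem rule_true (i j : ℤ) : Rule fun n => Ftrue (i + n * j) := by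
  refine ⟨⟨j, i, fun n _ => ?_⟩, fun n _ h => ?_, ?_⟩
  · simp only [Ftrue]; push_cast; ring
  · have := lastDigit_mul 0 (i + n * j) h
    simpa [Ftrue] using this
  · by_cases h0 : i = 0 ∧ j = 0
    · obtain ⟨rfl, rfl⟩ := h0
      refine ⟨0, 1, by decide, fun n _ => ⟨fun _ => ?_, fun w hw _ => ?_⟩⟩
      · simp [Ftrue, lastDigit]
      · omega
    · obtain ⟨s, a, b, hab, rfl, rfl⟩ := exists_primitive _ i j rfl h0
      refine ⟨a, b, hab, fun n _ => ⟨fun h => ?_, fun w hw h => ?_⟩⟩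
      · rw [← lastDigit_mul s _ h]
        simp only [Ftrue]; congr 1; ring
      · rw [← lastDigit_mul (s + 1) _ h]
        simp only [Ftrue]; congr 1
        linear_combination 7 ^ s * hw

end Crest.Agent.R046
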