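import Crest.Agent.R046.Abstract
import Crest.Agent.R046.Sudoku

/-! The moduli, the group and the steps. -/

set_option autoImplicit false

namespace Crest.Agent.R046

open Finset

abbrev Col := ZMod 49
abbrev Gad := Option Col
abbrev Fib := Gad × Option Bool

theorem exists_data : ∃ (q : Col × Bool → ℕ) (r : Col × Sym → ℕ), (∀ x, (q x).Prime) ∧
    (∀ y, (r y).Prime) ∧ (∀ x, 7 < q x) ∧ Function.Injective q ∧ Function.Injective r ∧
    ∀ x x' y, q x * q x' ≤ r y := by
  let i₁ := Fintype.equivFin (Col × Bool)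
  let i₂ := Fintype.equivFin (Col × Sym)
  let B := Nat.nth Nat.Prime (6 + Fintype.card (Col × Bool))
  have hinj := Nat.nth_injective Nat.infinite_setOfPred_prime
  have hmono := Nat.nth_monotone Nat.infinite_setOfPred_prime
  refine ⟨fun x => Nat.nth Nat.Prime (6 + i₁ x), fun y => Nat.nth Nat.Prime (B * B + i₂ y),
    fun x => Nat.prime_nth_prime _, fun y => Nat.prime_nth_prime _, fun x => ?_, ?_, ?_, ?_⟩
  · have := Nat.add_two_le_nth_prime (6 + i₁ x)
    dsimp only
    omega
  · intro x x' h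
    have := hinj h
    exact i₁.injective (Fin.ext (by omega))
  · intro x x' h
    have := hinj h
    exact i₂.injective (Fin.ext (by omega))
  · intro x x' y
    have h1 : ∀ x, Nat.nth Nat.Prime (6 + i₁ x) ≤ B := fun x =>
      hmono (by have := (i₁ x).2; omega)
    have h2 := Nat.add_two_le_nth_prime (B * B + i₂ y)
    have h3 := Nat.mul_le_mul (h1 x) (h1 x')
    dsimp only
    omega

noncomputable def qq : Col × Bool → ℕ := exists_data.choose
noncomputable def rr : Col × Sym → ℕ := exists_data.choose_spec.choose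

theorem qq_prime (x : Col × Bool) : (qq x).Prime := exists_data.choose_spec.choose_spec.1 x
theorem rr_prime (y : Col × Sym) : (rr y).Prime := exists_data.choose_spec.choose_spec.2.1 y
theorem qq_gt (x : Col × Bool) : 7 < qq x := exists_data.choose_spec.choose_spec.2.2.1 x
theorem qq_inj : Function.Injective qq := exists_data.choose_spec.choose_spec.2.2.2.1
theorem rr_inj : Function.Injective rr := exists_data.choose_spec.choose_spec.2.2.2.2.1
theorem qq_mul_le (x x' : Col × Bool) (y : Col × Sym) : qq x * qq x' ≤ rr y :=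
  exists_data.choose_spec.choose_spec.2.2.2.2.2 x x' y

theorem qq_lt_rr (x : Col × Bool) (y : Col × Sym) : qq x < rr y := by
  have h1 := qq_mul_le x x y
  have h2 := qq_gt x
  nlinarith

theorem rr_gt (y : Col × Sym) : 7 < rr y := (qq_gt (0, true)).trans (qq_lt_rr _ y)

theorem cop_qq {x x' : Col × Bool} (h : x ≠ x') : Nat.Coprime (qq x) (qq x') :=
  (Nat.coprime_primes (qq_prime x) (qq_prime x')).2 fun h' => h (qq_inj h')
theorem cop_rr {x x' : Col × Sym} (h : x ≠ x') : Nat.Coprime (rr x) (rr x') :=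
  (Nat.coprime_primes (rr_prime x) (rr_prime x')).2 fun h' => h (rr_inj h')
theorem cop_qr (x : Col × Bool) (y : Col × Sym) : Nat.Coprime (qq x) (rr y) :=
  (Nat.coprime_primes (qq_prime x) (rr_prime y)).2 (qq_lt_rr x y).ne
theorem cop_small {p c : ℕ} (hp : p.Prime) (h7 : 7 < p) (hc : 0 < c) (hc' : c ≤ 7) :
    Nat.Coprime p c :=
  hp.coprime_iff_not_dvd.2 (Nat.not_dvd_of_pos_of_lt hc (by omega))

def seedMod : Option Bool → ℕ
  | some false => 2
  | some true => 3
  | none => 7

theorem exists_RR : ∃ R : Col → ℕ, ∀ n, R n = ∏ σ, rr (n, σ) := ⟨_, fun _ => rfl⟩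

noncomputable def RR : Col → ℕ := exists_RR.choose

theorem RR_eq (n : Col) : RR n = ∏ σ, rr (n, σ) := exists_RR.choose_spec n

noncomputable def colMod (n : Col) : Option Bool → ℕ
  | some b => qq (n, b)
  | none => RR n

noncomputable def md0 : Fib → ℕ
  | (some n, s) => colMod n s
  | (none, s) => seedMod s

theorem exists_md : ∃ m : Fib → ℕ, ∀ f, m f = md0 f := ⟨_, fun _ => rfl⟩

noncomputable def md : Fib → ℕ := exists_md.choose

theorem md_eq (f : Fib) : md f = md0 f := exists_md.choose_spec f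

theorem md_seed (s : Option Bool) : md (none, s) = seedMod s := md_eq _
theorem md_col (n : Col) (s : Option Bool) : md (some n, s) = colMod n s := md_eq _
theorem md_col_some (n : Col) (b : Bool) : md (some n, some b) = qq (n, b) := md_eq _
theorem md_col_none (n : Col) : md (some n, none) = ∏ σ, rr (n, σ) := (md_eq _).trans (RR_eq n)
theorem md_seed_none : md (none, none) = 7 := md_eq _

theorem seedMod_bd (s : Option Bool) : 1 < seedMod s ∧ seedMod s ≤ 7 := by
  rcases s with _ | _ | _ <;> simp [seedMod]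

theorem md_pos (f : Fib) : 0 < md f := by
  rcases f with ⟨_ | n, s⟩
  · have := seedMod_bd s; rw [md_seed]; omega
  · rcases s with _ | b
    · rw [md_col_none]; exact Finset.prod_pos fun σ _ => (rr_prime _).pos
    · rw [md_col_some]; exact (qq_prime _).pos

instance md_neZero (f : Fib) : NeZero (md f) := ⟨(md_pos f).ne'⟩

theorem md_some_gt (γ : Gad) (b : Bool) : 1 < md (γ, some b) := by
  rcases γ with _ | n
  · rw [md_seed]; exact (seedMod_bd _).1
  · rw [md_col_some]; exact (qq_prime _).one_lt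

theorem cop_col_seed (n : Col) (s s' : Option Bool) : Nat.Coprime (colMod n s) (seedMod s') := by
  have := seedMod_bd s'
  rcases s with _ | b
  · rw [colMod, RR_eq]
    exact Nat.Coprime.prod_left fun σ _ => cop_small (rr_prime _) (rr_gt _) (by omega) this.2
  · exact cop_small (qq_prime _) (qq_gt _) (by omega) this.2

theorem md_coprime : Pairwise (Function.onFun Nat.Coprime md) := by
  rintro ⟨_ | n, s⟩ ⟨_ | n', s'⟩ h <;> rw [Function.onFun]
  · have : s ≠ s' := fun h' => h (by rw [h'])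
    rw [md_seed, md_seed]
    rcases s with _ | _ | _ <;> rcases s' with _ | _ | _ <;> first | decide | exact absurd rfl this
  · rw [md_seed, md_col]; exact (cop_col_seed n' s' s).symm
  · rw [md_seed, md_col]; exact cop_col_seed n s s'
  · rcases s with _ | b <;> rcases s' with _ | b'
    · rw [md_col_none, md_col_none]
      refine Nat.Coprime.prod_left fun σ _ => Nat.Coprime.prod_right fun σ' _ => cop_rr ?_
      intro h'
      apply h
      rw [show n = n' from (Prod.ext_iff.1 h').1]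
    · rw [md_col_none, md_col_some]
      exact Nat.Coprime.prod_left fun σ _ => (cop_qr _ _).symm
    · rw [md_col_none, md_col_some]
      exact Nat.Coprime.prod_right fun σ _ => cop_qr _ _
    · rw [md_col_some, md_col_some]
      refine cop_qq fun h' => h ?_
      obtain ⟨h1, h2⟩ := Prod.ext_iff.1 h'
      simp only at h1 h2
      rw [h1, h2]

abbrev KF := KK md
abbrev GG := ℤ × ℤ × KF

theorem crt_gen {ι : Type} [Fintype ι] (m : ι → ℕ) (hm : Pairwise (Function.onFun Nat.Coprime m)) :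
    (∀ k : ∀ f, ZMod (m f), ∃ t : ℤ, ∀ f, (t : ZMod (m f)) = k f) ∧
    ∃ M : ℤ, (∀ f, (M : ZMod (m f)) = 0) ∧ ∀ t : ℤ, (∀ f, (t : ZMod (m f)) = 0) → M ∣ t := by
  constructor
  · intro k
    obtain ⟨z, hz⟩ := (ZMod.prodEquivPi m hm).surjective k
    obtain ⟨t, rfl⟩ := ZMod.intCast_surjective z
    refine ⟨t, fun f => ?_⟩
    rw [← hz, map_intCast]; rfl
  · refine ⟨((∏ f, m f : ℕ) : ℤ), fun f => ?_, fun t h => ?_⟩
    · rw [ZMod.intCast_zmod_eq_zero_iff_dvd]
      exact Int.natCast_dvd_natCast.2 (Finset.dvd_prod_of_mem m (mem_univ f))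
    · rw [← ZMod.intCast_zmod_eq_zero_iff_dvd]
      apply (ZMod.prodEquivPi m hm).injective
      rw [map_intCast, map_zero]
      funext f
      exact h f

theorem crt_surj (k : KF) : ∃ t : ℤ, ∀ f, (t : ZMod (md f)) = k f :=
  (crt_gen md md_coprime).1 k

/-- the quotient map -/
noncomputable def proj : V3 →+ GG where
  toFun x := (x.1, x.2.1, fun f => (x.2.2 : ZMod (md f)))
  map_zero' := by ext <;> simp
  map_add' x y := by ext <;> simp

theorem proj_surj : Function.Surjective proj := by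
  rintro ⟨i, j, k⟩
  obtain ⟨t, ht⟩ := crt_surj k
  exact ⟨(i, j, t), Prod.ext rfl (Prod.ext rfl (funext ht))⟩

theorem proj_ker : ∃ w : V3, proj w = 0 ∧ ∀ x, proj x = 0 → ∃ n : ℤ, x = n • w := by
  obtain ⟨M, hM, hM'⟩ := (crt_gen md md_coprime).2
  refine ⟨(0, 0, M), Prod.ext rfl (Prod.ext rfl (funext hM)), ?_⟩
  rintro ⟨i, j, t⟩ h
  have h1 : i = 0 := congrArg Prod.fst h
  have h2 : j = 0 := congrArg (fun y : GG => y.2.1) h
  have h3 : ∀ f, (t : ZMod (md f)) = 0 := fun f => congrFun (congrArg (fun y : GG => y.2.2) h) f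
  obtain ⟨n, hn⟩ := hM' t h3
  refine ⟨n, ?_⟩
  rw [h1, h2, hn]
  simp [mul_comm]

/-- CRT idempotents -/
noncomputable def EE (f : Fib) : ℤ := (crt_surj (Pi.single f 1)).choose

theorem EE_self (f : Fib) : (EE f : ZMod (md f)) = 1 := by
  have := (crt_surj (Pi.single f 1)).choose_spec f
  rwa [Pi.single_eq_same] at this

theorem EE_ne {f f' : Fib} (h : f' ≠ f) : (EE f : ZMod (md f')) = 0 := by
  have := (crt_surj (Pi.single f 1)).choose_spec f'
  rwa [Pi.single_eq_of_ne h] at this

theorem EE_dvd {f f' : Fib} (h : f' ≠ f) : (md f' : ℤ) ∣ EE f :=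
  (ZMod.intCast_zmod_eq_zero_iff_dvd _ _).1 (EE_ne h)

theorem EE_sub_one (f : Fib) : (md f : ℤ) ∣ EE f - 1 := by
  rw [← ZMod.intCast_zmod_eq_zero_iff_dvd]
  push_cast
  rw [EE_self, sub_self]

def cn : Gad → ℤ
  | some n => (n.val : ℤ)
  | none => 0

/-- direction of a gadget -/
noncomputable def vv (γ : Gad) : GG := (-cn γ, 1, 0)

/-- fibre unit -/
noncomputable def fu (f : Fib) : GG := (0, 0, Pi.single f 1)

noncomputable def ee : Fib → GG
  | (some n, none) => EE (some n, none) • vv (some n)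
  | (some n, some b) => fu (some n, some b)
  | (none, s) => fu (none, s)

noncomputable def hh (γ : Gad) (b : Bool) : GG := EE (γ, some b) • vv γ

noncomputable def dd : Gad → GG
  | some n => -fu (some n, none)
  | none => (-1, 0, 0)

theorem exists_kap : ∃ k : Col → Sym → ℕ, ∀ n σ, k n σ = ∏ σ' ∈ univ.erase σ, rr (n, σ') :=
  ⟨_, fun _ _ => rfl⟩

noncomputable def kap : Col → Sym → ℕ := exists_kap.choose

theorem kap_eq (n : Col) (σ : Sym) : kap n σ = ∏ σ' ∈ univ.erase σ, rr (n, σ') :=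
  exists_kap.choose_spec n σ

theorem ee_some (γ : Gad) (b : Bool) : ee (γ, some b) = fu (γ, some b) := by
  cases γ <;> rfl

theorem ee_seed (s : Option Bool) : ee (none, s) = fu (none, s) := rfl

theorem ee_col (n : Col) : ee (some n, none) = EE (some n, none) • vv (some n) := rfl

theorem nsmul_fu (f : Fib) (t : ℕ) : t • fu f = (0, 0, Pi.single f (t : ZMod (md f))) := by
  simp only [fu, Prod.smul_mk, smul_zero]
  rw [← Pi.single_smul]
  simp

theorem fu_tors (f : Fib) : md f • fu f = 0 := by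
  rw [nsmul_fu]; simp

theorem ee_tors_some (γ : Gad) (b : Bool) : md (γ, some b) • ee (γ, some b) = 0 := by
  rw [ee_some]; exact fu_tors _

theorem ee_tors_seed (s : Option Bool) : md (none, s) • ee (none, s) = 0 := fu_tors _

/-- the finite set of moves -/
noncomputable def Mv : Set GG :=
  Set.range (fun p : Gad × Bool => hh p.1 p.2) ∪
  Set.range (fun p : Gad × Bool => hh p.1 p.2 + ee (p.1, some p.2)) ∪
  Set.range (fun p : Col × Sym => kap p.1 p.2 • fu (some p.1, none)) ∪
  Set.range fu ∪ Set.range (fun n : Col => EE (none, none) • vv (some n)) ∪ {(-7, 0, 0)}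

theorem Mv_finite : Mv.Finite := by
  unfold Mv
  refine ((((Set.Finite.union ?_ ?_).union ?_).union ?_).union ?_).union ?_ <;>
    first | exact Set.finite_range _ | exact Set.finite_singleton _

theorem Mv_hh (γ : Gad) (b : Bool) : hh γ b ∈ Mv :=
  Or.inl (Or.inl (Or.inl (Or.inl (Or.inl ⟨(γ, b), rfl⟩))))
theorem Mv_he (γ : Gad) (b : Bool) : hh γ b + ee (γ, some b) ∈ Mv :=
  Or.inl (Or.inl (Or.inl (Or.inl (Or.inr ⟨(γ, b), rfl⟩))))
theorem Mv_kap (n : Col) (σ : Sym) : kap n σ • fu (some n, none) ∈ Mv :=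
  Or.inl (Or.inl (Or.inl (Or.inr ⟨(n, σ), rfl⟩)))
theorem Mv_fu (f : Fib) : fu f ∈ Mv := Or.inl (Or.inl (Or.inr ⟨f, rfl⟩))
theorem Mv_L (n : Col) : EE (none, none) • vv (some n) ∈ Mv := Or.inl (Or.inr ⟨n, rfl⟩)
theorem Mv_7 : ((-7, 0, 0) : GG) ∈ Mv := Or.inr rfl

theorem exists_len (n : Col) (σ : Sym) :
    ∃ a b : ℕ, a * qq (n, false) + b * qq (n, true) = rr (n, σ) := by
  have h1 : Nat.Coprime (qq (n, false)) (qq (n, true)) := cop_qq (by simp)
  refine Nat.exists_add_mul_eq_of_gcd_dvd_of_mul_pred_le _ _ _ (by rw [h1]; exact one_dvd _) ?_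
  exact (Nat.mul_le_mul (Nat.pred_le _) (Nat.pred_le _)).trans (qq_mul_le _ _ _)

theorem rr_dvd_kap {n : Col} {σ σ' : Sym} (h : σ' ≠ σ) : rr (n, σ') ∣ kap n σ := by
  rw [kap_eq]
  exact Finset.dvd_prod_of_mem (fun σ' => rr (n, σ')) (Finset.mem_erase.2 ⟨h, mem_univ _⟩)

theorem rr_dvd_md (n : Col) (σ : Sym) : rr (n, σ) ∣ md (some n, none) := by
  rw [md_col_none]
  exact Finset.dvd_prod_of_mem (fun σ' => rr (n, σ')) (mem_univ σ)

theorem bezout_gen {I : Type} [Fintype I] [DecidableEq I] [Nonempty I] (r : I → ℕ)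
    (h : ∀ σ σ', σ ≠ σ' → Nat.Coprime (r σ) (r σ')) :
    ∃ μ : I → ℤ, ∑ σ, μ σ * ((∏ σ' ∈ univ.erase σ, r σ' : ℕ) : ℤ) = 1 := by
  have := (exists_sum_eq_one_iff_pairwise_coprime (I := I) (s := fun σ => (r σ : ℤ))
    (t := univ) univ_nonempty).2 (by
      intro σ σ' h'
      exact Nat.isCoprime_iff_coprime.2 (h _ _ fun h'' => h' (Subtype.ext h'')))
  obtain ⟨μ, hμ⟩ := this
  refine ⟨μ, ?_⟩
  rw [← hμ]
  refine Finset.sum_congr rfl fun σ _ => ?_
  rw [Finset.sdiff_singleton_eq_erase]; push_cast; rfl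

/-- the `kap n σ` generate the unit ideal -/
theorem kap_bezout (n : Col) : ∃ μ : Sym → ℤ, ∑ σ, μ σ * (kap n σ : ℤ) = 1 := by
  obtain ⟨μ, hμ⟩ := bezout_gen (fun σ : Sym => rr (n, σ))
    (fun σ σ' h => cop_rr fun h' => h (Prod.ext_iff.1 h').2)
  exact ⟨μ, by simp only [kap_eq]; exact hμ⟩

end Crest.Agent.R046
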