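import Mathlib

/-! Finite facts about the rigid 7-cube used for stacking two tiling equations into one. -/

set_option autoImplicit false

namespace Crest.Agent.R046

abbrev V3 := ℤ × ℤ × ℤ
abbrev Cell := Fin 7 × Fin 7 × Fin 7

/-- plain position of a cell -/
def cpos (r : Cell) : V3 := ((r.1.val : ℤ), (r.2.1.val : ℤ), (r.2.2.val : ℤ))

/-- displacement (in units of 7) of a cell: six holes are moved to plugs -/
def cdel (r : Cell) : V3 :=
  if r = (1, 3, 3) then (1, 0, 0) else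
  if r = (5, 3, 3) then (-1, 0, 0) else
  if r = (3, 1, 3) then (0, 1, 0) else
  if r = (3, 5, 3) then (0, -1, 0) else
  if r = (3, 3, 1) then (0, 0, 1) else
  if r = (3, 3, 5) then (0, 0, -1) else (0, 0, 0)

/-- multiplication by 7 -/
def sev (x : V3) : V3 := (7 * x.1, 7 * x.2.1, 7 * x.2.2)

def vadd (x y : V3) : V3 := (x.1 + y.1, x.2.1 + y.2.1, x.2.2 + y.2.2)
def vsub (x y : V3) : V3 := (x.1 - y.1, x.2.1 - y.2.1, x.2.2 - y.2.2)

def rho (r : Cell) : V3 := vadd (cpos r) (sev (cdel r))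

/-- the domino -/
def dom (r : Cell) : Bool := decide (r = (0, 0, 0)) || decide (r = (1, 0, 0))

def f7 (z : ℤ) : Fin 7 := ⟨(z % 7).toNat, by omega⟩

/-- the cell congruent to a vector -/
def cellOf (x : V3) : Cell := (f7 x.1, f7 x.2.1, f7 x.2.2)

def allF : List (Fin 7) := [3, 2, 4, 1, 5, 0, 6]

def allCells : List Cell :=
  allF.flatMap fun a => allF.flatMap fun b => allF.map fun c => (a, b, c)

def holes : List Cell := [(1, 3, 3), (5, 3, 3), (3, 1, 3), (3, 5, 3), (3, 3, 1), (3, 3, 5)]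

def dirs : List V3 := [(1, 0, 0), (-1, 0, 0), (0, 1, 0), (0, -1, 0), (0, 0, 1), (0, 0, -1)]

/-- the piece of kind `t` at offset `v` meets the body at the origin through its cell `r₂` -/
def clash (v : V3) (t : Bool) (r₂ : Cell) : Bool :=
  let r₁ := cellOf (vadd v (rho r₂))
  (dom r₂ == t) && (!dom r₁) && decide (rho r₁ = vadd v (rho r₂)) && decide (r₁ ≠ r₂)

def holeOK (h r : Cell) : Bool :=
  let v := vsub (cpos h) (rho r)
  decide (r = h) ||
    ((dirs.map fun d => cellOf (vadd (cpos r) d)) ++ allCells).any (clash v (dom r))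

theorem holeOK_all : (holes.all fun h => allCells.all fun r => holeOK h r) = true := by
  decide +kernel

def misOK (r : Cell) : Bool :=
  decide (r = (3, 3, 3)) || allCells.any (clash (vsub (cpos r) (3, 3, 3)) false)

theorem misOK_all : (allCells.all misOK) = true := by
  decide +kernel

theorem mem_allCells (r : Cell) : r ∈ allCells := by
  obtain ⟨a, b, c⟩ := r
  have h : ∀ a : Fin 7, a ∈ allF := by decide
  simp only [allCells, List.mem_flatMap, List.mem_map]
  exact ⟨a, h a, b, h b, c, h c, rfl⟩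

theorem rho_eq (r : Cell) : rho r = cpos r + (7 : ℤ) • cdel r := by
  simp [rho, vadd, sev, Prod.ext_iff]

theorem clash_spec {v : V3} {t : Bool} {r₂ : Cell} (h : clash v t r₂ = true) :
    ∃ r₁ : Cell, dom r₂ = t ∧ dom r₁ = false ∧ rho r₁ = v + rho r₂ ∧ r₁ ≠ r₂ := by
  simp only [clash, Bool.and_eq_true, beq_iff_eq, Bool.not_eq_true', decide_eq_true_eq] at h
  exact ⟨_, h.1.1.1, h.1.1.2, h.1.2, h.2⟩

theorem hole_spec (h : Cell) (hh : h ∈ holes) (r : Cell) :
    r = h ∨ ∃ r₁ r₂ : Cell, dom r₂ = dom r ∧ dom r₁ = false ∧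
      rho r₁ = cpos h - rho r + rho r₂ ∧ r₁ ≠ r₂ := by
  have h1 := holeOK_all
  rw [List.all_eq_true] at h1
  have h2 := h1 h hh
  rw [List.all_eq_true] at h2
  have h3 := h2 r (mem_allCells r)
  simp only [holeOK, Bool.or_eq_true, decide_eq_true_eq, List.any_eq_true] at h3
  rcases h3 with h3 | ⟨r₂, -, h3⟩
  · exact Or.inl h3
  · obtain ⟨r₁, h4⟩ := clash_spec h3
    exact Or.inr ⟨r₁, r₂, h4⟩

theorem mis_spec (r : Cell) :
    r = (3, 3, 3) ∨ ∃ r₁ r₂ : Cell, dom r₂ = false ∧ dom r₁ = false ∧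
      rho r₁ = cpos r - (3, 3, 3) + rho r₂ ∧ r₁ ≠ r₂ := by
  have h1 := misOK_all
  rw [List.all_eq_true] at h1
  have h3 := h1 r (mem_allCells r)
  simp only [misOK, Bool.or_eq_true, decide_eq_true_eq, List.any_eq_true] at h3
  rcases h3 with h3 | ⟨r₂, -, h3⟩
  · exact Or.inl h3
  · obtain ⟨r₁, h4⟩ := clash_spec h3
    exact Or.inr ⟨r₁, r₂, h4⟩

theorem exists_cpos (x : V3) : ∃ (r : Cell) (y : V3), x = cpos r + (7 : ℤ) • y := by
  refine ⟨cellOf x, (x.1 / 7, x.2.1 / 7, x.2.2 / 7), ?_⟩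
  obtain ⟨a, b, c⟩ := x
  simp only [cpos, cellOf, f7, Prod.ext_iff, Prod.fst_add, Prod.snd_add, Prod.smul_mk,
    smul_eq_mul]
  refine ⟨?_, ?_, ?_⟩ <;> omega

theorem exists_rho (x : V3) : ∃ (r : Cell) (y : V3), x = rho r + (7 : ℤ) • y := by
  obtain ⟨r, y, h⟩ := exists_cpos x
  refine ⟨r, y - cdel r, ?_⟩
  rw [rho_eq, smul_sub, h]; abel

theorem cpos_unique {r r' : Cell} {y y' : V3}
    (h : cpos r + (7 : ℤ) • y = cpos r' + (7 : ℤ) • y') : r = r' ∧ y = y' := by
  obtain ⟨a, b, c⟩ := r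
  obtain ⟨a', b', c'⟩ := r'
  obtain ⟨u, v, w⟩ := y
  obtain ⟨u', v', w'⟩ := y'
  simp only [cpos, Prod.ext_iff, Prod.fst_add, Prod.snd_add, Prod.smul_mk,
    smul_eq_mul, Fin.ext_iff] at h ⊢
  have := a.2; have := b.2; have := c.2; have := a'.2; have := b'.2; have := c'.2
  omega

theorem rho_unique {r r' : Cell} {y y' : V3}
    (h : rho r + (7 : ℤ) • y = rho r' + (7 : ℤ) • y') : r = r' ∧ y = y' := by
  have h' : cpos r + (7 : ℤ) • (cdel r + y) = cpos r' + (7 : ℤ) • (cdel r' + y') := by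
    rw [smul_add, smul_add, ← add_assoc, ← add_assoc, ← rho_eq, ← rho_eq, h]
  obtain ⟨h1, h2⟩ := cpos_unique h'
  subst h1
  exact ⟨rfl, add_left_cancel h2⟩

theorem dirs_hole (d : V3) (hd : d ∈ dirs) : ∃ h ∈ holes, dom h = false ∧ cdel h = -d := by
  revert d; decide

end Crest.Agent.R046
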