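import Crest.Agent.R046.SolE

/-! Every solution of the system encodes a solution of the Sudoku puzzle. -/

set_option autoImplicit false

namespace Crest.Agent.R046

open Finset

noncomputable def Eqs : Set (KF → GG) :=
  {box ee} ∪ Clauses ee Mv D0 ∪
    Set.range fun p : Gad × Bool => etile ee (p.1, some p.2) (p.1, none) (hh p.1 p.2) (dd p.1)

theorem Eqs_finite : Eqs.Finite :=
  ((Set.finite_singleton _).union (clauses_finite Mv_finite _)).union (Set.finite_range _)

theorem box_mem : box ee ∈ Eqs := Or.inl (Or.inl rfl)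

theorem Eqs_sol : ∀ φ ∈ Eqs, Tiles φ {x | D0 x = 0} := by
  rintro φ ((h | ⟨l, -, ν, g, -, hv, rfl⟩) | ⟨⟨γ, b⟩, rfl⟩)
  · rw [Set.mem_singleton_iff.1 h]; exact isHt_D0.tiles
  · exact nand_suff isHt_D0 ν g hv
  · exact (etile_iff isHt_D0 (ee_tors_some γ b) (by simp) _ _).2 (econd_D0 γ b)

theorem inv_shift {Δ : GG → KF} {f : Fib} {w : GG} (hw : ∀ y, Inv Δ f w y) (n : ℤ) (g x : GG) :
    Inv Δ f g (x - n • w) ↔ Inv Δ f g x := by
  unfold Inv
  rw [sub_right_comm, per_zsmul (fun y => Δ y f) w hw, per_zsmul (fun y => Δ y f) w hw]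

section nec
variable {A : Set GG} {Δ : GG → KF} (hH : IsHt ee A Δ) (hC : ∀ φ ∈ Clauses ee Mv D0, Tiles φ A)
  (hE : ∀ γ b, ECond Δ (γ, some b) (γ, none) (hh γ b) (dd γ))
include hH hC

theorem N1 (γ : Gad) (b : Bool) (x : GG) : Inv Δ (γ, some b) (hh γ (!b)) x :=
  transfer_one hH hC (ee_tors_some _ _) (Mv_hh _ _) (W1 γ b) x

theorem N5 (s : Option Bool) (x : GG) : Inv Δ (none, s) (-7, 0, 0) x :=
  transfer_one hH hC (ee_tors_seed _) Mv_7 (W5 s) x

theorem Nper (γ : Gad) (s : Option Bool) (x : GG) :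
    Δ (x - md (γ, none) • dd γ) (γ, s) = Δ x (γ, s) := by
  cases γ with
  | none =>
    have : md (none, none) • dd none = (-7, 0, 0) := by rw [md_seed_none]; simp [dd]
    rw [this]
    exact N5 hH hC s x
  | some n => rw [dd, smul_neg, fu_tors, neg_zero, sub_zero]

theorem NC1 (γ : Gad) (b : Bool) (x : GG) :
    Inv Δ (γ, some b) (hh γ b) x ∨ Inv Δ (γ, some (!b)) (hh γ (!b)) x := by
  refine transfer_two hH hC (ee_tors_some _ _) (ee_tors_some _ _) (Mv_hh _ _) (Mv_hh _ _)
    (W1 γ b) (by simpa using W1 γ (!b)) (fun y => ?_) x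
  by_cases h : Ty γ b y
  · exact Or.inl (W3 _ _ _ h)
  · exact Or.inr (W3 _ _ _ ((Ty_not _ _ _).2 h))

omit hC in
theorem inv_he {γ : Gad} {b : Bool} {x : GG} (h : Inv Δ (γ, some b) (hh γ b + ee (γ, some b)) x) :
    Δ (x - hh γ b) (γ, some b) = Δ x (γ, some b) + 1 := by
  have : Fact (1 < md (γ, some b)) := ⟨md_some_gt γ b⟩
  have h1 := hH.shift_single (x - (hh γ b + ee (γ, some b))) (γ, some b) 1 (ee_tors_some _ _)
  rw [ZMod.val_one, one_smul] at h1
  have e : x - (hh γ b + ee (γ, some b)) + ee (γ, some b) = x - hh γ b := by abel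
  rw [e] at h1
  rw [h1, Pi.add_apply, Pi.single_eq_same, h]

theorem NC2 (γ : Gad) (b : Bool) (x : GG) :
    Δ (x - hh γ b) (γ, some b) = Δ x (γ, some b) + 1 ∨
      Δ (x - hh γ (!b)) (γ, some (!b)) = Δ x (γ, some (!b)) + 1 := by
  refine (transfer_two hH hC (ee_tors_some _ _) (ee_tors_some _ _) (Mv_he _ _) (Mv_he _ _)
    (W2 γ b) (by simpa using W2 γ (!b)) (fun y => ?_) x).imp (inv_he hH) (inv_he hH)
  by_cases h : Ty γ b y
  · exact Or.inr (W4 _ _ _ fun h' => (Ty_not _ _ _).1 h' h)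
  · exact Or.inl (W4 _ _ _ h)

include hE in
theorem Ngad (γ : Gad) (b : Bool) (x : GG) (s : ZMod (md (γ, some b))) :
    ∃ z : ℕ, ¬ Inv Δ (γ, some (!b)) (hh γ (!b)) (x - z • dd γ) ∧
      Δ (x - z • dd γ) (γ, some b) = s := by
  have hae : ∀ b y (c : ZMod (md (γ, some b))),
      Δ (y + c.val • ee (γ, some b)) (γ, some b) = Δ y (γ, some b) + c := by
    intro b y c
    rw [hH.shift_single _ _ _ (ee_tors_some _ _), Pi.add_apply, Pi.single_eq_same]
  have hye : ∀ b y (c : ZMod (md (γ, some b))),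
      Δ (y + c.val • ee (γ, some b)) (γ, none) = Δ y (γ, none) := by
    intro b y c
    rw [hH.shift_single _ _ _ (ee_tors_some _ _), Pi.add_apply, Pi.single_eq_of_ne (by simp),
      add_zero]
  obtain ⟨z, ⟨-, h1⟩, h2⟩ := gadget_nec (md_some_gt γ b) (md_some_gt γ (!b))
    (md_coprime (i := (γ, some (!b))) (j := (γ, none)) (by simp))
    (fun y => Δ y (γ, some b)) (fun y => Δ y (γ, some (!b))) (fun y => Δ y (γ, none))
    (hh γ b) (hh γ (!b)) (dd γ) (ee (γ, some b)) (ee (γ, some (!b))) (hE γ b) (hE γ (!b))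
    (hae b) (hye b) (hae _) (hye _) (Nper hH hC γ _) (Nper hH hC γ _) (Nper hH hC γ _)
    (N1 hH hC γ b) (by simpa [Inv] using N1 hH hC γ (!b)) (NC1 hH hC γ b) (NC2 hH hC γ b) x s
  exact ⟨z, h1, h2⟩

omit hH hC in
/-- the symbols read off at column `n` -/
def Dn (Δ : GG → KF) (n : Col) (x : GG) : Set Sym :=
  {σ | ∃ c : ℤ, ¬ Inv Δ (some n, some false) (kap n σ • fu (some n, none))
    (x - c • fu (some n, none))}

omit hH hC in
theorem Dn_shift {n : Col} {w : GG} (hw : ∀ y, Inv Δ (some n, some false) w y) (k : ℤ) (x : GG) :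
    Dn Δ n (x - k • w) = Dn Δ n x := by
  ext σ
  simp only [Dn, Set.mem_ofPred_eq]
  refine exists_congr fun c => ?_
  rw [sub_right_comm, inv_shift hw]

include hE in
theorem Dn_nonempty (n : Col) (x : GG) : (Dn Δ n x).Nonempty := by
  by_contra hc
  have h1 : ∀ σ (c : ℤ), Inv Δ (some n, some false) (kap n σ • fu (some n, none))
      (x - c • fu (some n, none)) := by
    intro σ c
    by_contra h
    exact hc ⟨σ, c, h⟩
  let u : ℤ → ZMod (md (some n, some false)) := fun c =>
    Δ (x + c • fu (some n, none)) (some n, some false)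
  have h2 : ∀ σ (c : ℤ), u (c - (kap n σ : ℤ)) = u c := by
    intro σ c
    have := h1 σ (-c)
    simp only [Inv, neg_smul, sub_neg_eq_add] at this
    simp only [u]
    rw [← this, sub_smul, natCast_zsmul, add_sub_assoc]
  obtain ⟨μ, hμ⟩ := kap_bezout n
  have h3 : ∀ (s : Finset Sym) (c : ℤ), u (c - ∑ σ ∈ s, μ σ * (kap n σ : ℤ)) = u c := by
    intro s
    induction s using Finset.induction_on with
    | empty => simp
    | insert σ s hσ ih =>
      intro c
      rw [Finset.sum_insert hσ, ← sub_sub, ih]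
      exact per_zsmul u _ (h2 σ) (μ σ) c
  have h4 : ∀ c, u (c - 1) = u c := fun c => hμ ▸ h3 univ c
  have h5 : ∀ z : ℕ, u z = u 0 := by
    intro z
    have := per_zsmul u 1 h4 z z
    rw [← this]; simp
  have h6 : ∀ z : ℕ, Δ (x - z • dd (some n)) (some n, some false) = u 0 := by
    intro z
    rw [← h5 z]
    simp only [u, dd, smul_neg, sub_neg_eq_add, natCast_zsmul]
  obtain ⟨z, -, hz⟩ := Ngad hH hC hE (some n) false x 0
  obtain ⟨z', -, hz'⟩ := Ngad hH hC hE (some n) false x 1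
  have : Fact (1 < md (some n, some false)) := ⟨md_some_gt _ _⟩
  rw [h6] at hz hz'
  exact zero_ne_one (hz.symm.trans hz')

omit hH hC in
noncomputable def FF (Δ : GG → KF) (n : ℕ) (m : ℤ) : Sym :=
  Classical.epsilon fun σ => σ ∈ Dn Δ (n : Col) (EE (none, none) * m, 0, 0)

include hE in
theorem FF_mem (n : ℕ) (m : ℤ) : FF Δ n m ∈ Dn Δ (n : Col) (EE (none, none) * m, 0, 0) :=
  Classical.epsilon_spec (Dn_nonempty hH hC hE _ _)

include hE in
theorem FF_rule (i j : ℤ) : Rule fun n => FF Δ n (i + n * j) := by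
  by_contra hR
  let σ : Col → Sym := fun c => FF Δ c.val (i + c.val * j)
  let x : GG := (EE (none, none) * i, EE (none, none) * j, 0)
  have hmem : ∀ c : Col, σ c ∈ Dn Δ c x := by
    intro c
    have h1 := FF_mem hH hC hE c.val (i + c.val * j)
    rw [ZMod.natCast_zmod_val] at h1
    rw [← Dn_shift (transfer_one hH hC (ee_tors_some _ _) (Mv_L c) (W7 c false)) j x]
    convert h1 using 2
    simp only [x, vv, cn, Prod.smul_mk, Prod.mk_sub_mk, smul_eq_mul, smul_zero, sub_zero]
    congr 1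
    · ring
    · congr 1; ring
  choose c hc using hmem
  have hv : Valid ee D0 (fun m : ZMod (48 + 1) => ((some m, some false) : Fib))
      (fun m => kap m (σ m) • fu (some m, none)) := by
    refine ⟨fun m => ee_tors_some _ _, fun m m' h y => W6 h.symm _ _ _, fun y => ?_⟩
    by_contra hn
    apply hR
    refine (W11 y).congr fun n hn' => ?_
    by_contra hne
    refine hn ⟨(n : Col), W10 _ _ _ _ ?_⟩
    simp only [σ]
    rw [ZMod.val_natCast_of_lt hn']
    exact hne
  obtain ⟨m, hm⟩ := transfer hH hC (l := 48) le_rfl (fun m => Mv_kap _ _) hv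
    (x - ∑ m : Col, c m • fu (some m, none))
  apply hc m
  have hinv : ∀ m' : Col, m ≠ m' → ∀ y,
      Inv Δ (some m, some false) (c m' • fu (some m', none)) y := by
    intro m' h y
    exact per_zsmul (fun y => Δ y (some m, some false)) _
      (transfer_one hH hC (ee_tors_some _ _) (Mv_fu _)
        (fun y => by simpa using W6 h.symm false 1 y)) _ _
  have k1 := inv_sum_univ (Δ := Δ) (some m, some false) (fun m' : Col => c m' • fu (some m', none))
    m hinv
  generalize (∑ m : Col, c m • fu (some m, none)) = S at hm k1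
  have hm' : Δ (x - S - kap m (σ m) • fu (some m, none)) (some m, some false)
    = Δ (x - S) (some m, some false) := hm
  unfold Inv
  rw [sub_right_comm, k1, k1, sub_right_comm] at hm'
  exact hm'

include hE in
theorem FF_type (b : Bool) : ∃ z : ℤ, inT b (FF Δ 0 z).1 := by
  obtain ⟨z, hz, -⟩ := Ngad hH hC hE none b 0 0
  refine ⟨z, ?_⟩
  by_contra hT
  obtain ⟨c, hc⟩ := FF_mem hH hC hE 0 z
  rw [Nat.cast_zero] at hc
  have h2 := transfer_two hH hC (ee_tors_some none (!b)) (ee_tors_some (some 0) false)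
    (Mv_hh none (!b)) (Mv_kap 0 (FF Δ 0 z)) (W8 0 _ _) (W9 _ _) (fun y => by
      by_cases h : Ty none b y
      · refine Or.inr (W10 _ _ _ _ fun he => hT ?_)
        rw [← he, W12]
        exact (W13 _ _).1 h
      · exact Or.inl (W3 _ _ _ ((Ty_not _ _ _).2 h)))
    ((EE (none, none) * z, 0, 0) - c • fu (some 0, none))
  apply hz
  have h3 := h2.resolve_right hc
  rw [inv_shift (transfer_one hH hC (ee_tors_some _ _) (Mv_fu _)
    (fun y => by simpa using W8 0 (!b) 1 y))] at h3
  obtain ⟨k, hk⟩ := EE_sub_one (none, none)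
  rw [md_seed_none] at hk
  rw [← inv_shift (N5 hH hC _) (k * z)]
  convert h3 using 1
  refine Prod.ext ?_ (by simp [dd]; rfl)
  simp only [dd, Prod.fst_sub, Prod.smul_fst, Prod.fst_zero]
  simp only [smul_eq_mul, nsmul_eq_mul]
  push_cast at hk
  linear_combination (-(z : ℤ)) * hk

include hE in
theorem not_per : ¬ Per ((1, 0, 0) : GG) A := by
  rintro ⟨P, hP, hper⟩
  have h1 : ∀ y, Δ (y - P • ((1, 0, 0) : GG)) = Δ y := by
    intro y
    rw [← hH.per hper, sub_add_cancel]
  refine sudoku (FF Δ) (FF_rule hH hC hE) ?_ P hP fun n _ m => ?_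
  · obtain ⟨z, hz⟩ := FF_type hH hC hE false
    obtain ⟨z', hz'⟩ := FF_type hH hC hE true
    refine ⟨z, z', fun h => ?_⟩
    rw [h] at hz
    simp only [inT, Bool.false_eq_true, if_false, if_true] at hz hz'
    omega
  · unfold FF
    rw [← Dn_shift (w := P • ((1, 0, 0) : GG)) (fun y => congrFun (h1 y) _) (EE (none, none))]
    have : ((EE (none, none) * (m + P), 0, 0) : GG) - EE (none, none) • P • ((1, 0, 0) : GG)
        = (EE (none, none) * m, 0, 0) := by
      refine Prod.ext ?_ (by simp; rfl)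
      simp only [Prod.fst_sub, Prod.smul_fst]
      simp only [smul_eq_mul, nsmul_eq_mul]
      ring
    rw [this]

end nec

theorem Eqs_aper (A : Set GG) (h : ∀ φ ∈ Eqs, Tiles φ A) : ¬ Per ((1, 0, 0) : GG) A := by
  obtain ⟨Δ, hH⟩ := exists_isHt (h _ box_mem)
  refine not_per hH (fun φ hφ => h φ (Or.inl (Or.inr hφ))) fun γ b => ?_
  exact (etile_iff hH (ee_tors_some γ b) (by simp) _ _).1 (h _ (Or.inr ⟨(γ, b), rfl⟩))

theorem exists_aperiodic : ∃ (K' : Type) (_ : Finite K') (Φ : K' → V3), Rigid Φ ∧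
    (∃ A, Tiles Φ A) ∧ ∀ A, Tiles Φ A → ¬ Per ((1, 0, 0) : V3) A := by
  obtain ⟨w, hw, hker⟩ := proj_ker
  refine stack_pullback proj proj_surj w hw hker (1, 0, 0) Eqs Eqs_finite _ box_mem
    ⟨_, Eqs_sol⟩ fun A hA => ?_
  have : proj (1, 0, 0) = (1, 0, 0) := by
    refine Prod.ext rfl (Prod.ext rfl (funext fun f => ?_))
    exact Int.cast_zero
  rw [this]
  exact Eqs_aper A hA

end Crest.Agent.R046
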