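import Mathlib

/-! The integer pattern lemmas. -/

set_option autoImplicit false

namespace Crest.Agent.R046

theorem le_sub_of_dvd {q a L : ℤ} (ha : q ∣ a) (hL : q ∣ L) (h : a < L) : a + q ≤ L := by
  have := Int.le_of_dvd (sub_pos.2 h) (dvd_sub hL ha)
  omega

theorem pat_mixed {q r len W s s' : ℤ} (hr0 : 0 < r) (hq : q ∣ len) (hr : len ≤ r) (hs : 0 ≤ s)
    (hs1 : s < q) (hs' : 0 ≤ s') (hs1' : s' < q) (h1 : (W - s) % r < len)
    (h : q ∣ (W - s) % r - s') : (W - s') % r < len := by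
  have hu := Int.emod_nonneg (W - s) hr0.ne'
  have b1 := le_sub_of_dvd h hq (by omega)
  have b2 := le_sub_of_dvd (dvd_neg.2 h) (dvd_refl q) (by omega)
  have e : (W - s') % r = ((W - s) % r - s' + s) % r := by
    have : (W - s) % r - s' + s = W - s' - r * ((W - s) / r) := by
      have := Int.emod_add_mul_ediv (W - s) r
      linarith
    rw [this, Int.sub_mul_emod_self_left]
  rw [e, Int.emod_eq_of_lt (by omega) (by omega)]
  omega

theorem pat_same {q r len W s s' : ℤ} (hr0 : 0 < r) (hq : q ∣ len) (hr : len ≤ r) (hs : 0 ≤ s)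
    (hs1 : s < q) (hs' : 0 ≤ s') (hs1' : s' < q) (h1 : (W - s) % r < len)
    (h2 : (W - s') % r < len) (h : q ∣ (W - s) % r - (W - s') % r) : s = s' := by
  have hu := Int.emod_nonneg (W - s) hr0.ne'
  have hu' := Int.emod_nonneg (W - s') hr0.ne'
  have b1 := le_sub_of_dvd h hq (by omega)
  have b2 := le_sub_of_dvd (dvd_neg.2 h) hq (by omega)
  have hd : r ∣ (W - s) % r - (W - s') % r - (s' - s) := by
    refine ⟨(W - s') / r - (W - s) / r, ?_⟩
    have e1 := Int.emod_add_mul_ediv (W - s) r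
    have e2 := Int.emod_add_mul_ediv (W - s') r
    linarith
  have z := Int.eq_zero_of_abs_lt_dvd hd (by rw [abs_lt]; constructor <;> omega)
  have hd' : q ∣ s' - s := by
    have : (W - s) % r - (W - s') % r = s' - s := by omega
    rwa [this] at h
  have z' := Int.eq_zero_of_abs_lt_dvd hd' (by rw [abs_lt]; constructor <;> omega)
  omega

theorem pat_inj {q r len W s s' : ℤ} (hr0 : 0 < r) (hq : q ∣ len) (hr : len ≤ r) (hs : 0 ≤ s)
    (hs1 : s < q) (hs' : 0 ≤ s') (hs1' : s' < q)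
    (h : q ∣ (if (W - s) % r < len then (W - s) % r else s)
      - (if (W - s') % r < len then (W - s') % r else s')) : s = s' := by
  split_ifs at h with h1 h2 h2
  · exact pat_same hr0 hq hr hs hs1 hs' hs1' h1 h2 h
  · exact absurd (pat_mixed hr0 hq hr hs hs1 hs' hs1' h1 h) h2
  · exact absurd (pat_mixed hr0 hq hr hs' hs1' hs hs1 h2 (dvd_sub_comm.1 h)) h1
  · have z' := Int.eq_zero_of_abs_lt_dvd h (by rw [abs_lt]; constructor <;> omega)
    omega

theorem pat_excl {r l₀ l₁ C : ℤ} (h0 : 0 ≤ l₀) (h1 : 0 ≤ l₁) (hr : l₀ + l₁ = r) (hr0 : 0 < r) :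
    (C - 0) % r < l₀ ↔ ¬ (C - l₀) % r < l₁ := by
  rw [sub_zero]
  have hu := Int.emod_nonneg C hr0.ne'
  have hu' := Int.emod_lt_of_pos C hr0
  have e := Int.emod_add_mul_ediv C r
  by_cases h : C % r < l₀
  · have : (C - l₀) % r = C % r - l₀ + r := by
      have : C - l₀ = (C % r - l₀ + r) + r * (C / r - 1) := by linarith
      rw [this, Int.add_mul_emod_self_left, Int.emod_eq_of_lt (by omega) (by omega)]
    omega
  · have : (C - l₀) % r = C % r - l₀ := by
      have : C - l₀ = (C % r - l₀) + r * (C / r) := by linarith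
      rw [this, Int.add_mul_emod_self_left, Int.emod_eq_of_lt (by omega) (by omega)]
    omega

theorem existsUnique_pair {T U : Type} [Finite T] [Zero T] (Y : T → U) (f : T → U → T)
    (h : Function.Injective fun t => f t (Y t)) : ∃! p : T × U, f p.1 p.2 = 0 ∧ Y p.1 = p.2 := by
  obtain ⟨t, ht⟩ := (Finite.injective_iff_surjective.1 h) 0
  refine ⟨(t, Y t), ⟨ht, rfl⟩, ?_⟩
  rintro ⟨t', u⟩ ⟨h1, h2⟩
  simp only at h1 h2
  subst h2
  have : t' = t := h (h1.trans ht.symm)
  rw [this]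

theorem val_sub_dvd {R : ℕ} [NeZero R] (a : ZMod R) (t : ℤ) :
    (R : ℤ) ∣ ((a - (t : ZMod R)).val : ℤ) - a.val + t := by
  rw [← ZMod.intCast_zmod_eq_zero_iff_dvd]
  push_cast
  simp

end Crest.Agent.R046
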