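import Crest.Agent.R046.Tiles
import Crest.Prelude.Def_Tiling

/-! From a rigid aperiodic tile of ℤ³ to the Euclidean statement. -/

set_option autoImplicit false

namespace Crest.Agent.R046

open Crest.CombinatoricsR.Tiling MeasureTheory

abbrev Z3 := Fin 3 → ℤ
abbrev R3 := Fin 3 → ℝ

def castV (a : Z3) : R3 := fun i => (a i : ℝ)
noncomputable def floorV (x : R3) : Z3 := fun i => ⌊x i⌋

/-- no coordinate of `x` is an integer -/
def Gen (x : R3) : Prop := ∀ i, ∀ n : ℤ, x i ≠ n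

theorem ae_gen (b : R3) : ∀ᵐ x : R3, Gen (x - b) := by
  unfold Gen
  rw [ae_all_iff]
  intro i
  rw [ae_all_iff]
  intro n
  have := Measure.ae_eval_ne (μ := fun _ : Fin 3 => (volume : Measure ℝ)) i (b i + n)
  filter_upwards [this] with x hx
  intro h
  apply hx
  simp only [Pi.sub_apply] at h
  linarith

theorem mem_thick_iff {T : Finset Z3} {x : R3} (hx : Gen x) :
    x ∈ cubeThickening T ↔ floorV x ∈ T := by
  constructor
  · rintro ⟨z, hz, h⟩
    have : floorV x = z := by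
      funext i
      simp only [floorV]
      rw [Int.floor_eq_iff]
      refine ⟨(h i).1, lt_of_le_of_ne (h i).2 ?_⟩
      have := hx i (z i + 1)
      push_cast at this
      exact this
    rwa [this]
  · intro h
    exact ⟨_, h, fun i => ⟨Int.floor_le _, (Int.lt_floor_add_one _).le⟩⟩

theorem gen_add_cast {x : R3} (hx : Gen x) (a : Z3) : Gen (x + castV a) := by
  intro i n h
  apply hx i (n - a i)
  simp only [Pi.add_apply, castV] at h
  push_cast; linarith

theorem floorV_add_cast (x : R3) (a : Z3) : floorV (x + castV a) = floorV x + a := by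
  funext i; simp [floorV, castV]

theorem castV_neg (a : Z3) : castV (-a) = -castV a := by
  funext i; simp [castV]

theorem castV_injective : Function.Injective castV := by
  intro a b h
  funext i
  have := congrFun h i
  simpa [castV] using this

theorem ae_tiling_of_tiling {T : Finset Z3} {A : Set Z3} (h : IsTilingBy T A) :
    IsAETilingBy (cubeThickening T) (castV '' A) := by
  unfold IsAETilingBy
  filter_upwards [ae_gen 0] with x hx
  rw [sub_zero] at hx
  have key : ∀ a : Z3, x - castV a ∈ cubeThickening T ↔ floorV x - a ∈ T := by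
    intro a
    rw [sub_eq_add_neg, ← castV_neg, mem_thick_iff (gen_add_cast hx _), floorV_add_cast,
      sub_eq_add_neg]
  obtain ⟨⟨a, t⟩, ⟨ha, ht, he⟩, hu⟩ := h (floorV x)
  simp only at ha ht he
  refine ⟨castV a, ⟨⟨a, ha, rfl⟩, (key a).2 (by rw [← he]; simpa using ht)⟩, ?_⟩
  rintro _ ⟨⟨a', ha', rfl⟩, h'⟩
  have := hu (a', floorV x - a') ⟨ha', (key a').1 h', by simp⟩
  exact congrArg castV (Prod.ext_iff.1 this).1

theorem countable_of_ae_tiling {T : Finset Z3} (hT : T.Nonempty) {B : Set R3}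
    (h : IsAETilingBy (cubeThickening T) B) : B.Countable := by
  obtain ⟨t, ht⟩ := hT
  let U : R3 → Set R3 := fun b => Set.pi Set.univ fun i => Set.Ioo (b i + t i) (b i + t i + 1)
  have hUo : ∀ b, IsOpen (U b) := fun b =>
    isOpen_set_pi Set.finite_univ fun i _ => isOpen_Ioo
  have hUs : ∀ b, ∀ x ∈ U b, x - b ∈ cubeThickening T := by
    intro b x hx
    refine ⟨t, ht, fun i => ?_⟩
    have := hx i (Set.mem_univ _)
    simp only [Set.mem_Ioo, Pi.sub_apply] at this ⊢
    constructor <;> linarith [this.1, this.2]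
  have hd : B.PairwiseDisjoint U := by
    intro b hb b' hb' hne
    rw [Function.onFun, Set.disjoint_iff_inter_eq_empty]
    by_contra hc
    have hne' : (U b ∩ U b').Nonempty := Set.nonempty_iff_ne_empty.2 hc
    obtain ⟨x, hx, hx2⟩ := (Measure.dense_of_ae h).inter_open_nonempty _
      ((hUo b).inter (hUo b')) hne'
    exact hne (hx2.unique ⟨hb, hUs b x hx.1⟩ ⟨hb', hUs b' x hx.2⟩)
  refine hd.countable_of_isOpen (fun b _ => hUo b) fun b _ => ?_
  refine ⟨fun i => b i + t i + 1 / 2, fun i _ => ?_⟩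
  simp only [Set.mem_Ioo]
  constructor <;> linarith

/-- slice of a real tiling -/
def slice (B : Set R3) (x : R3) : Set Z3 := {a | ∃ b ∈ B, a = -floorV (x - b)}

theorem ae_slice {T : Finset Z3} (hT : T.Nonempty) {B : Set R3}
    (h : IsAETilingBy (cubeThickening T) B) : ∀ᵐ x : R3, IsTilingBy T (slice B x) := by
  have h1 : ∀ᵐ x : R3, ∀ b ∈ B, Gen (x - b) :=
    (ae_ball_iff (countable_of_ae_tiling hT h)).2 fun b _ => ae_gen b
  have h2 : ∀ᵐ x : R3, ∀ n : Z3, ∃! b : R3, b ∈ B ∧ x + castV n - b ∈ cubeThickening T := by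
    rw [ae_all_iff]
    intro n
    exact (measurePreserving_add_right volume (castV n)).quasiMeasurePreserving.ae h
  filter_upwards [h1, h2] with x hx1 hx2
  intro n
  have key : ∀ b ∈ B, x + castV n - b ∈ cubeThickening T ↔ floorV (x - b) + n ∈ T := by
    intro b hb
    have : x + castV n - b = (x - b) + castV n := by abel
    rw [this, mem_thick_iff (gen_add_cast (hx1 b hb) _), floorV_add_cast]
  obtain ⟨b, ⟨hb, hb2⟩, hu⟩ := hx2 n
  refine ⟨(-floorV (x - b), floorV (x - b) + n), ⟨⟨b, hb, rfl⟩, (key b hb).1 hb2, by simp⟩, ?_⟩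
  rintro ⟨a, t⟩ ⟨⟨b', hb', ha⟩, ht, he⟩
  simp only at ha ht he
  have ht' : t = floorV (x - b') + n := by rw [← he, ha]; abel
  have : b' = b := hu b' ⟨hb', (key b' hb').2 (ht' ▸ ht)⟩
  subst this
  rw [ha, ht']

theorem int_diff {T : Finset Z3} (hT : T.Nonempty) {B : Set R3}
    (hr : ∀ A, IsTilingBy T A → ∀ a ∈ A, ∀ a' ∈ A, ∀ i, (7 : ℤ) ∣ a i - a' i)
    (h : IsAETilingBy (cubeThickening T) B) {b b' : R3} (hb : b ∈ B) (hb' : b' ∈ B) (i : Fin 3) :
    ∃ n : ℤ, b i - b' i = n := by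
  by_contra hc
  push Not at hc
  set δ := b i - b' i with hδ
  have hf0 : 0 < Int.fract δ := by
    rcases (Int.fract_nonneg δ).lt_or_eq with h0 | h0
    · exact h0
    · exfalso
      apply hc ⌊δ⌋
      have := Int.floor_add_fract δ
      linarith
  have hf1 : Int.fract δ < 1 := Int.fract_lt_one δ
  have hd := Measure.dense_of_ae (ae_slice hT h)
  have key : ∀ lo hi : ℝ, lo < hi → ∃ y : ℝ, lo < y ∧ y < hi ∧ (7 : ℤ) ∣ ⌊y + δ⌋ - ⌊y⌋ := by
    intro lo hi hlt
    have ho : IsOpen {x : R3 | x i - b i ∈ Set.Ioo lo hi} :=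
      isOpen_Ioo.preimage (by fun_prop)
    obtain ⟨x, hx, hx2⟩ := hd.inter_open_nonempty _ ho
      ⟨fun _ => b i + (lo + hi) / 2, by
        simp only [Set.mem_ofPred_eq, Set.mem_Ioo]; constructor <;> linarith⟩
    refine ⟨x i - b i, hx.1, hx.2, ?_⟩
    have := hr _ hx2 _ ⟨b, hb, rfl⟩ _ ⟨b', hb', rfl⟩ i
    simp only [Pi.neg_apply, floorV, Pi.sub_apply] at this
    have e : x i - b i + δ = x i - b' i := by rw [hδ]; ring
    rw [e]
    convert this using 1; ring
  have hfl := Int.floor_add_fract δ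
  obtain ⟨y, hy1, hy2, hy⟩ := key 0 (1 - Int.fract δ) (by linarith)
  obtain ⟨z, hz1, hz2, hz⟩ := key (1 - Int.fract δ) 1 (by linarith)
  have e1 : ⌊y⌋ = 0 := by rw [Int.floor_eq_iff]; constructor <;> push_cast <;> linarith
  have e2 : ⌊z⌋ = 0 := by rw [Int.floor_eq_iff]; constructor <;> push_cast <;> linarith
  have e3 : ⌊y + δ⌋ = ⌊δ⌋ := by rw [Int.floor_eq_iff]; constructor <;> linarith
  have e4 : ⌊z + δ⌋ = ⌊δ⌋ + 1 := by
    rw [Int.floor_eq_iff]; constructor <;> push_cast <;> linarith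
  rw [e1, e3] at hy
  rw [e2, e4] at hz
  omega

theorem lattice_mul (b : Module.Basis (Fin 3) ℝ R3) (hb : ∀ j i, ∃ n : ℤ, b j i = n) :
    ∃ P : ℕ, 0 < P ∧ castV (P • Pi.single 0 1) ∈ Submodule.span ℤ (Set.range ⇑b) := by
  choose N hN using hb
  let M : Matrix (Fin 3) (Fin 3) ℤ := Matrix.of N
  have hdet : M.det ≠ 0 := by
    intro h0
    have h1 : ((Int.castRingHom ℝ).mapMatrix M).det = 0 := by
      rw [← RingHom.map_det, h0, map_zero]
    have h2 : LinearIndependent ℝ ((Int.castRingHom ℝ).mapMatrix M).row := by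
      have : ((Int.castRingHom ℝ).mapMatrix M).row = ⇑b := by
        funext j i
        simp [M, hN, Matrix.row]
      rw [this]; exact b.linearIndependent
    rw [Matrix.linearIndependent_rows_iff_isUnit, Matrix.isUnit_iff_isUnit_det, h1] at h2
    exact not_isUnit_zero h2
  have hmem : castV (M.det • Pi.single 0 1) ∈ Submodule.span ℤ (Set.range ⇑b) := by
    have : castV (M.det • Pi.single 0 1) = ∑ j, M.adjugate 0 j • b j := by
      funext i
      have h3 := congrFun (congrFun (Matrix.adjugate_mul M) 0) i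
      rw [Matrix.mul_apply] at h3
      have h4 : (∑ j, M.adjugate 0 j • b j) i
          = ((∑ j, M.adjugate 0 j * M j i : ℤ) : ℝ) := by
        rw [Finset.sum_apply]
        push_cast
        refine Finset.sum_congr rfl fun j _ => ?_
        rw [Pi.smul_apply, hN, zsmul_eq_mul]; rfl
      rw [h4, h3]
      simp [castV, Matrix.one_apply, Pi.single_apply, eq_comm]
    rw [this]
    exact Submodule.sum_mem _ fun j _ =>
      Submodule.smul_mem _ _ (Submodule.subset_span ⟨j, rfl⟩)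
  refine ⟨M.det.natAbs, Int.natAbs_pos.2 hdet, ?_⟩
  rcases Int.natAbs_eq M.det with h | h
  · rw [h] at hmem
    simpa using hmem
  · have := Submodule.neg_mem _ hmem
    rw [← castV_neg, ← neg_smul, h] at this
    simpa using this

theorem final_of_finset (T : Finset Z3) (hex : ∃ A, IsTilingBy T A)
    (hr : ∀ A, IsTilingBy T A → ∀ a ∈ A, ∀ a' ∈ A, ∀ i, (7 : ℤ) ∣ a i - a' i)
    (hap : ∀ A, IsTilingBy T A → ¬ Per (Pi.single 0 1 : Z3) A) :
    T.Nonempty ∧
      (∃ A : Set (Fin 3 → ℤ), IsTilingBy T A) ∧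
      (∀ A : Set (Fin 3 → ℤ), IsTilingBy T A → ¬ IsFullyPeriodic A) ∧
      (∃ B : Set (Fin 3 → ℝ), IsAETilingBy (cubeThickening T) B) ∧
      ∀ B : Set (Fin 3 → ℝ), IsAETilingBy (cubeThickening T) B → ¬ IsLatticePeriodic B := by
  obtain ⟨A₀, hA₀⟩ := hex
  have hT : T.Nonempty := by
    obtain ⟨p, hp, -⟩ := hA₀ 0
    exact ⟨p.2, hp.2.1⟩
  refine ⟨hT, ⟨A₀, hA₀⟩, ?_, ⟨_, ae_tiling_of_tiling hA₀⟩, ?_⟩
  · rintro A hA ⟨H, hH, hper⟩
    refine hap A hA ⟨H.index, Nat.pos_of_ne_zero hH.index_ne_zero, fun a ha => ?_⟩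
    rw [add_comm]
    exact hper _ (H.nsmul_index_mem _) a ha
  · rintro B hB ⟨b, hper⟩
    obtain ⟨x, hx⟩ := (ae_slice hT hB).exists
    obtain ⟨⟨a₀, t₀⟩, ⟨⟨b₀, hb₀, -⟩, -⟩, -⟩ := hx 0
    have hint : ∀ j i, ∃ n : ℤ, b j i = n := by
      intro j i
      have := int_diff hT hr hB (hper (b j) (Submodule.subset_span ⟨j, rfl⟩) b₀ hb₀) hb₀ i
      simpa using this
    obtain ⟨P, hP, hmem⟩ := lattice_mul b hint
    refine hap _ hx ⟨P, hP, ?_⟩
    rintro _ ⟨b', hb', rfl⟩
    refine ⟨_, hper _ hmem b' hb', ?_⟩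
    have : x - (castV (P • Pi.single 0 1) + b') = (x - b') + castV (-(P • Pi.single 0 1)) := by
      rw [castV_neg]; abel
    rw [this, floorV_add_cast]; abel

/-- coordinates -/
def toZ3 : V3 ≃+ Z3 where
  toFun x := ![x.1, x.2.1, x.2.2]
  invFun a := (a 0, a 1, a 2)
  left_inv x := rfl
  right_inv a := by funext i; fin_cases i <;> rfl
  map_add' x y := by funext i; fin_cases i <;> rfl

theorem final_of_tiles {K : Type} [Finite K] (Φ : K → V3) (hr : Rigid Φ) (hex : ∃ A, Tiles Φ A)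
    (hap : ∀ A, Tiles Φ A → ¬ Per ((1, 0, 0) : V3) A) :
    ∃ T : Finset (Fin 3 → ℤ), T.Nonempty ∧
      (∃ A : Set (Fin 3 → ℤ), IsTilingBy T A) ∧
      (∀ A : Set (Fin 3 → ℤ), IsTilingBy T A → ¬ IsFullyPeriodic A) ∧
      (∃ B : Set (Fin 3 → ℝ), IsAETilingBy (cubeThickening T) B) ∧
      ∀ B : Set (Fin 3 → ℝ), IsAETilingBy (cubeThickening T) B → ¬ IsLatticePeriodic B := by
  classical
  have := Fintype.ofFinite K
  obtain ⟨A₀, hA₀⟩ := hex
  have hinj : Function.Injective Φ := by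
    intro k k' h
    obtain ⟨k₀, hk₀, -⟩ := hA₀ 0
    refine (hA₀ (0 - Φ k₀ + Φ k)).unique ?_ ?_
    · simpa using hk₀
    · rw [h]; simpa using hk₀
  let T : Finset Z3 := Finset.univ.image fun k => toZ3 (Φ k)
  have key : ∀ A : Set Z3, IsTilingBy T A ↔ Tiles Φ (toZ3 ⁻¹' A) := by
    intro A
    constructor
    · intro h x
      obtain ⟨⟨a, t⟩, ⟨ha, ht, he⟩, hu⟩ := h (toZ3 x)
      simp only at ha ht he
      obtain ⟨k, -, rfl⟩ := Finset.mem_image.1 ht
      refine ⟨k, ?_, ?_⟩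
      · show toZ3 (x - Φ k) ∈ A
        rw [map_sub, ← he]; simpa using ha
      · intro k' hk'
        have := hu (toZ3 (x - Φ k'), toZ3 (Φ k'))
          ⟨hk', Finset.mem_image.2 ⟨k', Finset.mem_univ _, rfl⟩, by simp⟩
        exact hinj (toZ3.injective (Prod.ext_iff.1 this).2)
    · intro h x
      obtain ⟨k, hk, hu⟩ := h (toZ3.symm x)
      refine ⟨(toZ3 (toZ3.symm x - Φ k), toZ3 (Φ k)),
        ⟨hk, Finset.mem_image.2 ⟨k, Finset.mem_univ _, rfl⟩, by simp⟩, ?_⟩
      rintro ⟨a, t⟩ ⟨ha, ht, he⟩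
      simp only at ha ht he
      obtain ⟨k', -, rfl⟩ := Finset.mem_image.1 ht
      have h1 : k' = k := hu k' (by
        show toZ3 (toZ3.symm x - Φ k') ∈ A
        rw [← he]; simpa using ha)
      subst h1
      rw [← he]; simp
  refine ⟨T, final_of_finset T ⟨toZ3.symm ⁻¹' A₀, (key _).2 ?_⟩ ?_ ?_⟩
  · convert hA₀ using 1
    ext x; simp
  · intro A hA a ha a' ha' i
    obtain ⟨y, hy⟩ := hr _ ((key A).1 hA) (toZ3.symm a') (by simpa using ha') (toZ3.symm a)
      (by simpa using ha)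
    have : a = a' + (7 : ℤ) • toZ3 y := by
      have := congrArg toZ3 hy
      rw [map_add, map_zsmul] at this
      simpa using this
    rw [this]
    exact ⟨toZ3 y i, by simp⟩
  · rintro A hA ⟨P, hP, hper⟩
    refine hap _ ((key A).1 hA) ⟨P, hP, fun a ha => ?_⟩
    have e : toZ3 ((1, 0, 0) : V3) = Pi.single 0 1 := by
      funext i; fin_cases i <;> rfl
    show toZ3 (a + P • ((1, 0, 0) : V3)) ∈ A
    rw [map_add, map_nsmul, e]
    exact hper _ ha

end Crest.Agent.R046
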