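import Crest.Agent.R046.Data
import Crest.Agent.R046.Pat

/-! The intended solution and the clauses it satisfies. -/

set_option autoImplicit false

namespace Crest.Agent.R046

open Finset

noncomputable def yy (γ : Gad) (j : ℤ) : ℤ := j % md (γ, some false) + j % md (γ, some true)

noncomputable def sh (n : Col) (j : ℤ) : ZMod (md (some n, none)) :=
  ((j - yy (some n) j : ℤ) : ZMod (md (some n, none)))

noncomputable def wt (j : ℤ) (m : Col) : ℤ := ((sh m j).val : ℤ) * EE (some m, none)

noncomputable def lin (n : Col) (x : GG) : ℤ :=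
  x.1 + n.val * x.2.1 + ∑ m : Col, wt x.2.1 m * ((m.val : ℤ) - n.val)

noncomputable def key : Gad → GG → Sym
  | some n, x => Ftrue (lin n x)
  | none, _ => (0, 0)

noncomputable def rad : Gad → Sym → ℕ
  | some n, σ => rr (n, σ)
  | none, _ => 7

noncomputable def len : Gad → Sym → Bool → ℕ
  | some n, σ, false => (exists_len n σ).choose * qq (n, false)
  | some n, σ, true => (exists_len n σ).choose_spec.choose * qq (n, true)
  | none, _, false => 4
  | none, _, true => 3

noncomputable def off (γ : Gad) (σ : Sym) : Bool → ℕ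
  | false => 0
  | true => len γ σ false

noncomputable def cc : Gad → GG → ℤ
  | some n, x => ((x.2.2 (some n, none)).val : ℤ)
  | none, x => x.1

noncomputable def cv (γ : Gad) (b : Bool) (x : GG) : ℤ :=
  (cc γ x - off γ (key γ x) b) % rad γ (key γ x)

def Ty (γ : Gad) (b : Bool) (x : GG) : Prop := cv γ b x < len γ (key γ x) b

noncomputable instance (γ : Gad) (b : Bool) (x : GG) : Decidable (Ty γ b x) :=
  inferInstanceAs (Decidable (_ < _))

noncomputable def al (γ : Gad) (b : Bool) (x : GG) : ℤ := if Ty γ b x then cv γ b x else x.2.1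

noncomputable def D0 (x : GG) : KF
  | (γ, some b) => x.2.2 (γ, some b) - (al γ b x : ℤ)
  | (some n, none) => sh n x.2.1
  | (none, none) => x.2.2 (none, none) - (yy none x.2.1 : ℤ)

theorem D0_some (x : GG) (γ : Gad) (b : Bool) :
    D0 x (γ, some b) = x.2.2 (γ, some b) - (al γ b x : ℤ) := by cases γ <;> rfl
theorem D0_col (x : GG) (n : Col) : D0 x (some n, none) = sh n x.2.1 := rfl
theorem D0_seed (x : GG) : D0 x (none, none) = x.2.2 (none, none) - (yy none x.2.1 : ℤ) := rfl

theorem len_add (γ : Gad) (σ : Sym) : len γ σ false + len γ σ true = rad γ σ := by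
  cases γ with
  | none => rfl
  | some n => exact (exists_len n σ).choose_spec.choose_spec

theorem md_dvd_len (γ : Gad) (σ : Sym) (b : Bool) : md (γ, some b) ∣ len γ σ b := by
  cases γ with
  | none => rw [md_seed]; cases b <;> simp [seedMod, len]
  | some n => rw [md_col_some]; cases b <;> exact Dvd.intro_left _ rfl

theorem rad_pos (γ : Gad) (σ : Sym) : 0 < rad γ σ := by
  cases γ with
  | none => simp [rad]
  | some n => exact (rr_prime _).pos

theorem rad_dvd (γ : Gad) (σ : Sym) : rad γ σ ∣ md (γ, none) := by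
  cases γ with
  | none => rw [md_seed_none]; rfl
  | some n => exact rr_dvd_md n σ

theorem len_le (γ : Gad) (σ : Sym) (b : Bool) : len γ σ b ≤ rad γ σ := by
  have := len_add γ σ
  cases b <;> omega

theorem Ty_excl (γ : Gad) (x : GG) : Ty γ false x ↔ ¬ Ty γ true x := by
  have h := len_add γ (key γ x)
  have := pat_excl (r := rad γ (key γ x)) (l₀ := len γ (key γ x) false)
    (l₁ := len γ (key γ x) true) (C := cc γ x) (by positivity) (by positivity)
    (by exact_mod_cast h) (by exact_mod_cast rad_pos _ _)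
  exact this

theorem Ty_not (γ : Gad) (b : Bool) (x : GG) : Ty γ (!b) x ↔ ¬ Ty γ b x := by
  have := Ty_excl γ x
  cases b
  · simp only [Bool.not_false]; tauto
  · simp only [Bool.not_true]; tauto

theorem yy_congr {γ : Gad} {j j' : ℤ} (h : ∀ b, (md (γ, some b) : ℤ) ∣ j - j') :
    yy γ j' = yy γ j := by
  unfold yy
  rw [Int.emod_eq_emod_iff_emod_sub_eq_zero.2 (Int.emod_eq_zero_of_dvd (h false)),
    Int.emod_eq_emod_iff_emod_sub_eq_zero.2 (Int.emod_eq_zero_of_dvd (h true))]

theorem sh_sub {m : Col} {j w : ℤ} (h : ∀ b, (md (some m, some b) : ℤ) ∣ w) :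
    sh m (j - w) = sh m j - (w : ℤ) := by
  unfold sh
  rw [yy_congr (j := j) (j' := j - w) (by simpa using h)]
  push_cast; ring

theorem sh_congr {m : Col} {j w : ℤ} (h : ∀ s, (md (some m, s) : ℤ) ∣ w) :
    sh m (j - w) = sh m j := by
  rw [sh_sub fun b => h _, (ZMod.intCast_zmod_eq_zero_iff_dvd _ _).2 (h none), sub_zero]

theorem lin_sub (n : Col) (x w : GG) (h1 : w.1 + n.val * w.2.1 = 0)
    (h2 : ∀ m, m ≠ n → ∀ s, (md (some m, s) : ℤ) ∣ w.2.1) : lin n (x - w) = lin n x := by
  unfold lin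
  have : ∀ m : Col, wt (x - w).2.1 m * ((m.val : ℤ) - n.val)
      = wt x.2.1 m * ((m.val : ℤ) - n.val) := by
    intro m
    by_cases hm : m = n
    · rw [hm, sub_self, mul_zero, mul_zero]
    · simp only [wt, Prod.snd_sub, Prod.fst_sub]
      rw [sh_congr (h2 m hm)]
  rw [Finset.sum_congr rfl fun m _ => this m]
  simp only [Prod.snd_sub, Prod.fst_sub]
  linear_combination -h1

/-- the move `w` does not change the state of gadget `γ` at `x` -/
def Neutral (γ : Gad) (w x : GG) : Prop :=
  key γ (x - w) = key γ x ∧ (rad γ (key γ x) : ℤ) ∣ cc γ (x - w) - cc γ x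

theorem Neutral.cv_eq {γ : Gad} {w x : GG} (h : Neutral γ w x) (b : Bool) :
    cv γ b (x - w) = cv γ b x := by
  unfold cv
  rw [h.1]
  refine Int.emod_eq_emod_iff_emod_sub_eq_zero.2 (Int.emod_eq_zero_of_dvd ?_)
  convert h.2 using 1; ring

theorem Neutral.Ty_iff {γ : Gad} {w x : GG} (h : Neutral γ w x) (b : Bool) :
    Ty γ b (x - w) ↔ Ty γ b x := by
  unfold Ty
  rw [h.cv_eq, h.1]

theorem Neutral.D0_sub {γ : Gad} {w x : GG} (h : Neutral γ w x) (b : Bool) :
    D0 (x - w) (γ, some b) = D0 x (γ, some b) - w.2.2 (γ, some b)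
      + if Ty γ b x then 0 else ((w.2.1 : ℤ) : ZMod (md (γ, some b))) := by
  rw [D0_some, D0_some]
  unfold al
  simp only [h.Ty_iff, h.cv_eq, Prod.snd_sub, Prod.fst_sub, Pi.sub_apply]
  split_ifs
  · ring
  · push_cast; ring

theorem Neutral.inv {γ : Gad} {w x : GG} (h : Neutral γ w x) (b : Bool)
    (h1 : w.2.2 (γ, some b) = 0) (h2 : (md (γ, some b) : ℤ) ∣ w.2.1) :
    Inv D0 (γ, some b) w x := by
  unfold Inv
  rw [h.D0_sub, h1, (ZMod.intCast_zmod_eq_zero_iff_dvd _ _).2 h2]
  simp

theorem neutral_col (n : Col) (w x : GG) (h1 : w.1 + n.val * w.2.1 = 0)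
    (h2 : ∀ m, m ≠ n → ∀ s, (md (some m, s) : ℤ) ∣ w.2.1) (t : ℤ)
    (h3 : w.2.2 (some n, none) = (t : ℤ)) (h4 : (rr (n, key (some n) x) : ℤ) ∣ t) :
    Neutral (some n) w x := by
  refine ⟨congrArg Ftrue (lin_sub n x w h1 h2), ?_⟩
  simp only [cc, rad, Prod.snd_sub, Pi.sub_apply, h3]
  have h5 := (Int.natCast_dvd_natCast.2 (rr_dvd_md n (key (some n) x))).trans
    (val_sub_dvd (x.2.2 (some n, none)) t)
  exact (dvd_add_left h4).1 h5

theorem neutral_seed (w x : GG) (h : (7 : ℤ) ∣ w.1) : Neutral none w x := by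
  refine ⟨rfl, ?_⟩
  simpa [cc, rad] using h

/-- moves along the direction of the gadget, plus a fibre part -/
theorem neutral_vv (γ : Gad) (c : ℤ) (k : KF) (x : GG)
    (hc : ∀ m, some m ≠ γ → ∀ s, (md (some m, s) : ℤ) ∣ c) (hk : k (γ, none) = 0) :
    Neutral γ (c • vv γ + (0, 0, k)) x := by
  cases γ with
  | none => apply neutral_seed; simp [vv, cn]
  | some n =>
    refine neutral_col n _ x ?_ ?_ 0 ?_ (dvd_zero _)
    · simp [vv, cn]; ring
    · intro m hm s
      simpa [vv] using hc m (fun h => hm (Option.some_injective _ h)) s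
    · simp [vv, hk]

theorem hh_fst (γ : Gad) (b : Bool) : (hh γ b).1 = -(EE (γ, some b) * cn γ) := by simp [hh, vv]
theorem hh_j (γ : Gad) (b : Bool) : (hh γ b).2.1 = EE (γ, some b) := by simp [hh, vv]
theorem hh_k (γ : Gad) (b : Bool) : (hh γ b).2.2 = 0 := by simp [hh, vv]

theorem neutral_hh (γ : Gad) (b : Bool) (x : GG) : Neutral γ (hh γ b) x := by
  have := neutral_vv γ (EE (γ, some b)) 0 x (fun m hm s => EE_dvd (by simp [hm])) rfl
  rwa [show ((0, 0, 0) : GG) = 0 from rfl, add_zero] at this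

theorem neutral_he (γ : Gad) (b : Bool) (x : GG) : Neutral γ (hh γ b + ee (γ, some b)) x := by
  rw [ee_some]
  exact neutral_vv γ (EE (γ, some b)) _ x (fun m hm s => EE_dvd (by simp [hm]))
    (Pi.single_eq_of_ne (by simp) _)

theorem W1 (γ : Gad) (b : Bool) (x : GG) : Inv D0 (γ, some b) (hh γ (!b)) x :=
  (neutral_hh γ _ x).inv b (by rw [hh_k]; rfl) (by rw [hh_j]; exact EE_dvd (by simp))

theorem W2 (γ : Gad) (b : Bool) (x : GG) :
    Inv D0 (γ, some b) (hh γ (!b) + ee (γ, some (!b))) x := by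
  refine (neutral_he γ _ x).inv b ?_ ?_
  · rw [ee_some, Prod.snd_add, Prod.snd_add, hh_k, zero_add]
    exact Pi.single_eq_of_ne (by simp) _
  · rw [ee_some, Prod.snd_add, Prod.fst_add, hh_j]
    simpa [fu] using EE_dvd (f := (γ, some (!b))) (f' := (γ, some b)) (by simp)

theorem W3 (γ : Gad) (b : Bool) (x : GG) (h : Ty γ b x) : Inv D0 (γ, some b) (hh γ b) x := by
  unfold Inv
  rw [(neutral_hh γ b x).D0_sub, if_pos h, hh_k]
  simp

theorem W4 (γ : Gad) (b : Bool) (x : GG) (h : ¬ Ty γ b x) :
    Inv D0 (γ, some b) (hh γ b + ee (γ, some b)) x := by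
  unfold Inv
  rw [(neutral_he γ b x).D0_sub, if_neg h, ee_some]
  simp [hh_k, hh_j, fu, EE_self]

theorem W5 (s : Option Bool) (x : GG) : Inv D0 (none, s) (-7, 0, 0) x := by
  cases s with
  | some b => exact (neutral_seed _ x (by simp)).inv b rfl (by simp)
  | none => simp [Inv, D0_seed]

theorem W6 {n m : Col} (h : m ≠ n) (b : Bool) (t : ℕ) (x : GG) :
    Inv D0 (some n, some b) (t • fu (some m, none)) x := by
  rw [nsmul_fu]
  refine (neutral_col n _ x (by simp) (by simp) 0 ?_ (dvd_zero _)).inv b ?_ (by simp)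
  · simp only [Int.cast_zero]
    exact Pi.single_eq_of_ne (by simp [h.symm]) _
  · exact Pi.single_eq_of_ne (by simp) _

theorem W7 (n : Col) (b : Bool) (x : GG) :
    Inv D0 (some n, some b) (EE (none, none) • vv (some n)) x := by
  have := neutral_vv (some n) (EE (none, none)) 0 x (fun m _ s => EE_dvd (by simp)) rfl
  rw [show ((0, 0, 0) : GG) = 0 from rfl, add_zero] at this
  refine this.inv b (by simp [vv]) ?_
  simpa [vv] using EE_dvd (f := (none, none)) (f' := (some n, some b)) (by simp)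

theorem W8 (m : Col) (b : Bool) (t : ℕ) (x : GG) :
    Inv D0 (none, some b) (t • fu (some m, none)) x := by
  rw [nsmul_fu]
  refine (neutral_seed _ x (by simp)).inv b ?_ (by simp)
  simp

theorem W9 (b b' : Bool) (x : GG) : Inv D0 (some 0, some b') (hh none b) x := by
  refine (neutral_col 0 _ x ?_ ?_ 0 ?_ (dvd_zero _)).inv b' ?_ ?_
  · simp [hh_fst, cn]
  · intro m _ s; rw [hh_j]; exact EE_dvd (by simp)
  · simp [hh_k]
  · simp [hh_k]
  · rw [hh_j]; exact EE_dvd (by simp)

theorem W10 (n : Col) (b : Bool) (σ : Sym) (x : GG) (h : key (some n) x ≠ σ) :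
    Inv D0 (some n, some b) (kap n σ • fu (some n, none)) x := by
  rw [nsmul_fu]
  refine (neutral_col n _ x (by simp) (by simp) (kap n σ) (by simp) ?_).inv b ?_ (by simp)
  · exact Int.natCast_dvd_natCast.2 (rr_dvd_kap h)
  · exact Pi.single_eq_of_ne (by simp) _

theorem Rule.congr {τ τ' : ℕ → Sym} (h : ∀ n < 49, τ n = τ' n) (hτ : Rule τ) : Rule τ' := by
  obtain ⟨⟨α, β, h1⟩, h2, a, b, hab, h3⟩ := hτ
  refine ⟨⟨α, β, fun n hn => h n hn ▸ h1 n hn⟩, fun n hn => h n hn ▸ h2 n hn, a, b, hab,
    fun n hn => ?_⟩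
  have := h3 n hn
  simp only at this ⊢
  rwa [h n hn] at this

theorem W11 (x : GG) : Rule fun n : ℕ => key (some (n : Col)) x := by
  refine (rule_true (x.1 + ∑ m : Col, wt x.2.1 m * m.val) (x.2.1 - ∑ m : Col, wt x.2.1 m)).congr
    fun n hn => ?_
  simp only [key, lin]
  congr 1
  rw [ZMod.val_natCast_of_lt hn]
  simp only [mul_sub, Finset.sum_sub_distrib, ← Finset.sum_mul]
  ring

theorem seven_dvd_EE (m : Col) (s : Option Bool) : (7 : ℤ) ∣ EE (some m, s) := by
  have := EE_dvd (f := (some m, s)) (f' := (none, none)) (by simp)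
  rwa [md_seed_none] at this

theorem W12 (x : GG) : (key (some 0) x).1 = (x.1 : Z7) := by
  simp only [key, Ftrue, lin]
  have : (7 : ℤ) ∣ ∑ m : Col, wt x.2.1 m * ((m.val : ℤ) - (0 : Col).val) :=
    Finset.dvd_sum fun m _ => ((seven_dvd_EE m none).mul_left _).mul_right _
  rw [Int.cast_add, (ZMod.intCast_zmod_eq_zero_iff_dvd _ 7).2 this]
  simp

/-- the residues belonging to each seed type -/
def inT (b : Bool) (e : Z7) : Prop := if b then 4 ≤ e.val else e.val < 4

theorem W13 (b : Bool) (x : GG) : Ty none b x ↔ inT b (x.1 : Z7) := by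
  have h : (((x.1 : Z7).val : ℕ) : ℤ) = x.1 % 7 := ZMod.val_intCast _
  cases b
  · simp only [Ty, cv, cc, off, rad, len, inT]
    simp only [Bool.false_eq_true, if_false]
    omega
  · simp only [Ty, cv, cc, off, rad, len, inT]
    simp only [if_true]
    omega

/-! ### the box tile -/

theorem box_fst (k : KF) : (box ee k).1 =
    -∑ m : Col, ((k (some m, none)).val : ℤ) * EE (some m, none) * m.val := by
  rw [box, Prod.fst_sum, Fintype.sum_prod_type, Fintype.sum_option, ← Finset.sum_neg_distrib]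
  simp only [ee_seed, fu, Prod.smul_fst, smul_zero, Finset.sum_const_zero, zero_add]
  refine Finset.sum_congr rfl fun m _ => ?_
  rw [Fintype.sum_option]
  simp [ee_some, ee_col, fu, vv, cn, mul_assoc]

theorem box_j (k : KF) : (box ee k).2.1 =
    ∑ m : Col, ((k (some m, none)).val : ℤ) * EE (some m, none) := by
  rw [box, Prod.snd_sum, Prod.fst_sum, Fintype.sum_prod_type, Fintype.sum_option]
  simp only [ee_seed, fu, Prod.smul_fst, Prod.smul_snd, smul_zero, Finset.sum_const_zero, zero_add]
  refine Finset.sum_congr rfl fun m _ => ?_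
  rw [Fintype.sum_option]
  simp [ee_some, ee_col, fu, vv]

theorem ee_k_ne {f f' : Fib} (h : f' ≠ f) : (ee f').2.2 f = 0 := by
  rcases f' with ⟨_ | n, _ | b⟩
  · exact Pi.single_eq_of_ne h.symm _
  · exact Pi.single_eq_of_ne h.symm _
  · simp [ee_col, vv]
  · exact Pi.single_eq_of_ne h.symm _

theorem box_k (k : KF) (f : Fib) : (box ee k).2.2 f = (k f).val • (ee f).2.2 f := by
  rw [box, Prod.snd_sum, Prod.snd_sum, Finset.sum_apply, Finset.sum_eq_single f]
  · rfl
  · intro f' _ h
    simp only [Prod.smul_snd, Pi.smul_apply, ee_k_ne h, smul_zero]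
  · intro h; exact absurd (mem_univ f) h

theorem box_k_fu (k : KF) {f : Fib} (h : ee f = fu f) : (box ee k).2.2 f = k f := by
  rw [box_k, h]; simp [fu]

theorem box_k_col (k : KF) (n : Col) : (box ee k).2.2 (some n, none) = 0 := by
  rw [box_k, ee_col]; simp [vv]

theorem dvd_box_j (k : KF) {f : Fib} (h : ∀ m, f ≠ (some m, none)) :
    (md f : ℤ) ∣ (box ee k).2.1 := by
  rw [box_j]
  exact Finset.dvd_sum fun m _ => (EE_dvd (h m)).mul_left _

theorem cast_box_j (k : KF) (n : Col) :
    (((box ee k).2.1 : ℤ) : ZMod (md (some n, none))) = k (some n, none) := by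
  rw [box_j, Int.cast_sum, Finset.sum_eq_single n]
  · simp [EE_self]
  · intro m _ h
    rw [Int.cast_mul, EE_ne (by simp [h.symm]), mul_zero]
  · intro h; exact absurd (mem_univ n) h

theorem D0_box_col (x : GG) (k : KF) (n : Col) :
    D0 (x - box ee k) (some n, none) = D0 x (some n, none) - k (some n, none) := by
  rw [D0_col, D0_col, Prod.snd_sub, Prod.fst_sub, sh_sub fun b => dvd_box_j k (by simp),
    cast_box_j]

theorem D0_box (x : GG) (k : KF) (hk : ∀ n, k (some n, none) = D0 x (some n, none)) :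
    D0 (x - box ee k) = D0 x - k := by
  have hlin : ∀ n, lin n (x - box ee k) = lin n x := by
    intro n
    have h0 : ∀ m, wt (x - box ee k).2.1 m = 0 := by
      intro m
      have := D0_box_col x k m
      rw [hk, sub_self, D0_col] at this
      rw [wt, this]; simp
    have h1 : ∀ m, ((k (some m, none)).val : ℤ) * EE (some m, none) = wt x.2.1 m := by
      intro m; rw [hk]; rfl
    unfold lin
    simp only [h0, zero_mul, Finset.sum_const_zero, add_zero]
    simp only [Prod.snd_sub, Prod.fst_sub, box_fst, box_j, h1, mul_sub, Finset.sum_sub_distrib,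
      ← Finset.sum_mul]
    ring
  have hN : ∀ γ, Neutral γ (box ee k) x := by
    intro γ
    cases γ with
    | none =>
      apply neutral_seed
      rw [box_fst, dvd_neg]
      exact Finset.dvd_sum fun m _ => ((seven_dvd_EE m none).mul_left _).mul_right _
    | some n =>
      refine ⟨congrArg Ftrue (hlin n), ?_⟩
      simp [cc, box_k_col]
  funext f
  rcases f with ⟨γ, _ | b⟩
  · cases γ with
    | none =>
      rw [Pi.sub_apply, D0_seed, D0_seed, Prod.snd_sub, Prod.snd_sub, Prod.fst_sub, Pi.sub_apply,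
        box_k_fu k (ee_seed _), yy_congr (j := x.2.1) (j' := x.2.1 - (box ee k).2.1)
          (fun b => by simpa using dvd_box_j k (by simp))]
      ring
    | some n => exact D0_box_col x k n
  · rw [(hN γ).D0_sub, box_k_fu k (ee_some _ _),
      (ZMod.intCast_zmod_eq_zero_iff_dvd _ _).2 (dvd_box_j k (by simp))]
    simp

theorem isHt_D0 : IsHt ee {x | D0 x = 0} D0 := by
  intro x k
  constructor
  · intro h
    have h' : D0 (x - box ee k) = 0 := h
    have hk : ∀ n, k (some n, none) = D0 x (some n, none) := by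
      intro n
      have := D0_box_col x k n
      rw [h'] at this
      exact (sub_eq_zero.1 this.symm).symm
    rw [D0_box x k hk] at h'
    exact (sub_eq_zero.1 h').symm
  · rintro rfl
    show D0 (x - box ee (D0 x)) = 0
    rw [D0_box x _ fun _ => rfl, sub_self]

end Crest.Agent.R046
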