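import Crest.Agent.R046.Sol

/-! The intended solution satisfies the role-swap equations. -/

set_option autoImplicit false

namespace Crest.Agent.R046

open Finset

noncomputable def base : Gad → GG → ℤ
  | some _, x => x.2.1
  | none, x => ((x.2.2 (none, none)).val : ℤ)

theorem dd_j (γ : Gad) : (dd γ).2.1 = 0 := by cases γ <;> simp [dd, fu]

theorem dd_k (γ : Gad) (b : Bool) : (dd γ).2.2 (γ, some b) = 0 := by
  cases γ <;> simp [dd, fu]

theorem ept_j (γ : Gad) (b : Bool) (x : GG) (t u : ℕ) :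
    (x - t • hh γ b - u • dd γ).2.1 = x.2.1 - t * EE (γ, some b) := by
  simp [hh_j, dd_j]

theorem ept_k (γ : Gad) (b : Bool) (x : GG) (t u : ℕ) :
    (x - t • hh γ b - u • dd γ).2.2 (γ, some b) = x.2.2 (γ, some b) := by
  simp [hh_k, dd_k]

theorem ept_rho (γ : Gad) (b : Bool) (x : GG) (t u : ℕ) :
    D0 (x - t • hh γ b - u • dd γ) (γ, none) =
      ((base γ x - yy γ (x.2.1 - t * EE (γ, some b)) : ℤ) : ZMod (md (γ, none))) := by
  cases γ with
  | none =>
    rw [D0_seed, ept_j]
    simp [base, hh_k, dd]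
  | some n =>
    rw [D0_col, ept_j, sh, base]
    push_cast
    rw [EE_ne (by simp)]
    ring

theorem ept_key (γ : Gad) (b : Bool) (x : GG) (t u : ℕ) :
    key γ (x - t • hh γ b - u • dd γ) = key γ x := by
  cases γ with
  | none => rfl
  | some n =>
    rw [sub_sub]
    refine congrArg Ftrue (lin_sub n x _ ?_ ?_)
    · simp [hh_fst, hh_j, dd, fu, cn]; ring
    · intro m hm s
      have : (t • hh (some n) b + u • dd (some n)).2.1 = t * EE (some n, some b) := by
        simp [hh_j, dd_j]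
      rw [this]
      exact (EE_dvd (by simp [hm])).mul_left _

theorem ept_cc (γ : Gad) (b : Bool) (x : GG) (t u : ℕ) :
    (md (γ, none) : ℤ) ∣ cc γ (x - t • hh γ b - u • dd γ) - (cc γ x + u) := by
  cases γ with
  | none => simp [cc, hh_fst, cn, dd]
  | some n =>
    rw [← ZMod.intCast_zmod_eq_zero_iff_dvd]
    simp [cc, hh_k, dd, fu]

theorem yy_ept (γ : Gad) (b : Bool) (j : ℤ) (t : ℕ) : yy γ (j - t * EE (γ, some b)) =
    (j - t * EE (γ, some b)) % md (γ, some b) + j % md (γ, some (!b)) := by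
  have h : (j - t * EE (γ, some b)) % md (γ, some (!b)) = j % md (γ, some (!b)) := by
    refine Int.emod_eq_emod_iff_emod_sub_eq_zero.2 (Int.emod_eq_zero_of_dvd ?_)
    have : (md (γ, some (!b)) : ℤ) ∣ EE (γ, some b) := EE_dvd (by simp)
    rw [sub_sub_cancel_left, dvd_neg]
    exact this.mul_left _
  unfold yy
  cases b
  · simp only [Bool.not_false] at h ⊢; rw [h]
  · simp only [Bool.not_true] at h ⊢; rw [h, add_comm]

theorem econd_D0 (γ : Gad) (b : Bool) : ECond D0 (γ, some b) (γ, none) (hh γ b) (dd γ) := by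
  intro x
  simp only [ept_rho]
  set q := md (γ, some b) with hq
  let Y : ZMod q → ZMod (md (γ, none)) := fun t =>
    ((base γ x - yy γ (x.2.1 - t.val * EE (γ, some b)) : ℤ) : ZMod (md (γ, none)))
  refine existsUnique_pair Y
    (fun t u => D0 (x - t.val • hh γ b - u.val • dd γ) (γ, some b)) ?_
  let s : ZMod q → ℤ := fun t => (x.2.1 - t.val * EE (γ, some b)) % q
  let W : ℤ := cc γ x + base γ x - x.2.1 % md (γ, some (!b)) - off γ (key γ x) b
  let r : ℤ := rad γ (key γ x)
  let l : ℤ := len γ (key γ x) b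
  have hq0 : (0 : ℤ) < q := by exact_mod_cast md_pos _
  have hcv : ∀ t : ZMod q, cv γ b (x - t.val • hh γ b - (Y t).val • dd γ) = (W - s t) % r := by
    intro t
    rw [cv, ept_key]
    refine Int.emod_eq_emod_iff_emod_sub_eq_zero.2 (Int.emod_eq_zero_of_dvd ?_)
    refine (Int.natCast_dvd_natCast.2 (rad_dvd γ _)).trans ?_
    have h1 := ept_cc γ b x t.val (Y t).val
    have h2 : (md (γ, none) : ℤ) ∣ ((Y t).val : ℤ)
        - (base γ x - yy γ (x.2.1 - t.val * EE (γ, some b))) := by
      rw [← ZMod.intCast_zmod_eq_zero_iff_dvd, Int.cast_sub, Int.cast_natCast,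
        ZMod.natCast_zmod_val]
      exact sub_self _
    rw [yy_ept] at h2
    convert dvd_add h1 h2 using 1
    simp only [W, s]
    ring
  have hs : ∀ t : ZMod q, ((s t : ℤ) : ZMod q) = ((x.2.1 - t.val * EE (γ, some b) : ℤ) : ZMod q) :=
    fun t => ZMod.intCast_mod _ _
  have hD : ∀ t : ZMod q, D0 (x - t.val • hh γ b - (Y t).val • dd γ) (γ, some b) =
      x.2.2 (γ, some b) - ((if (W - s t) % r < l then (W - s t) % r else s t : ℤ) : ZMod q) := by
    intro t
    rw [D0_some, ept_k, al]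
    simp only [Ty, hcv, ept_key, ept_j]
    congr 1
    split_ifs
    · rfl
    · exact (hs t).symm
  intro t t' h
  simp only [hD, sub_right_inj] at h
  have h1 := pat_inj (q := q) (r := r) (len := l) (W := W) (s := s t) (s' := s t')
    (Int.natCast_pos.2 (rad_pos _ _)) (Int.natCast_dvd_natCast.2 (md_dvd_len γ _ b))
    (Int.ofNat_le.2 (len_le γ _ b)) (Int.emod_nonneg _ hq0.ne') (Int.emod_lt_of_pos _ hq0)
    (Int.emod_nonneg _ hq0.ne') (Int.emod_lt_of_pos _ hq0)
    (by rw [← ZMod.intCast_zmod_eq_zero_iff_dvd, Int.cast_sub, h, sub_self])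
  have h2 := hs t
  rw [h1, hs t'] at h2
  push_cast at h2
  rw [EE_self] at h2
  simpa using h2.symm

end Crest.Agent.R046
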