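import Crest.Agent.R046.Gadget

/-! Families of tiling equations, stacking in ℤ³ and pull-back along a quotient map. -/

set_option autoImplicit false

namespace Crest.Agent.R046

/-- `A` tiles the group with the indexed tile `φ`. -/
def Tiles {G K : Type} [AddCommGroup G] (φ : K → G) (A : Set G) : Prop :=
  ∀ x, ∃! k, x - φ k ∈ A

/-- `A` is mapped to itself by some positive multiple of `g`. -/
def Per {G : Type} [AddCommGroup G] (g : G) (A : Set G) : Prop :=
  ∃ P : ℕ, 0 < P ∧ ∀ a ∈ A, a + P • g ∈ A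

/-- all tilings by `φ` lie in one coset of `7ℤ³` -/
def Rigid {K : Type} (φ : K → V3) : Prop :=
  ∀ A, Tiles φ A → ∀ a ∈ A, ∀ a' ∈ A, ∃ y : V3, a' = a + (7 : ℤ) • y

def merge {K : Type} (φ ψ : K → V3) (p : K × Cell) : V3 :=
  (7 : ℤ) • (if dom p.2 then ψ p.1 else φ p.1) + rho p.2

section merge
variable {K : Type} {φ ψ : K → V3} {A : Set V3}

/-- base point of a piece of kind `t` -/
def IsPiece (φ ψ : K → V3) (A : Set V3) (t : Bool) (b : V3) : Prop :=
  ∃ k, b - (7 : ℤ) • (if t then ψ k else φ k) ∈ A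

theorem piece_clash (h : Tiles (merge φ ψ) A) {b b' : V3} {r₁ r₂ : Cell}
    (hb : IsPiece φ ψ A (dom r₁) b) (hb' : IsPiece φ ψ A (dom r₂) b')
    (he : b + rho r₁ = b' + rho r₂) : r₁ = r₂ := by
  obtain ⟨k, hk⟩ := hb
  obtain ⟨k', hk'⟩ := hb'
  have h1 : b + rho r₁ - merge φ ψ (k, r₁) ∈ A := by
    convert hk using 1; simp only [merge]; abel
  have h2 : b + rho r₁ - merge φ ψ (k', r₂) ∈ A := by
    rw [he]; convert hk' using 1; simp only [merge]; abel
  have := (h (b + rho r₁)).unique h1 h2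
  exact (Prod.ext_iff.1 this).2

theorem body_step (h : Tiles (merge φ ψ) A) {b : V3} (hb : IsPiece φ ψ A false b)
    (d : V3) (hd : d ∈ dirs) : IsPiece φ ψ A false (b + (7 : ℤ) • d) := by
  obtain ⟨c, hc, hdc, hdel⟩ := dirs_hole d hd
  obtain ⟨⟨k, r⟩, hk, -⟩ := h (b + cpos c)
  have hp : IsPiece φ ψ A (dom r) (b + cpos c - rho r) := by
    refine ⟨k, ?_⟩
    convert hk using 1; simp only [merge]; abel
  rcases hole_spec c hc r with rfl | ⟨r₁, r₂, h2, h1, he, hne⟩
  · rw [hdc] at hp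
    convert hp using 1
    rw [rho_eq, hdel, smul_neg]; abel
  · exfalso
    apply hne
    refine piece_clash h (b := b) (b' := b + cpos c - rho r) (h1 ▸ hb) (h2 ▸ hp) ?_
    rw [he]; abel

theorem body_line (h : Tiles (merge φ ψ) A) {b : V3} (hb : IsPiece φ ψ A false b)
    (d : V3) (hd : d ∈ dirs) (hd' : -d ∈ dirs) (n : ℤ) :
    IsPiece φ ψ A false (b + (7 : ℤ) • (n • d)) := by
  induction n using Int.induction_on with
  | zero => simpa using hb
  | succ n ih =>
    have := body_step h ih d hd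
    convert this using 1
    rw [add_smul, one_smul, smul_add]; abel
  | pred n ih =>
    have := body_step h ih (-d) hd'
    convert this using 1
    rw [sub_smul, one_smul, smul_sub, smul_neg]; abel

theorem body_all (h : Tiles (merge φ ψ) A) {b : V3} (hb : IsPiece φ ψ A false b) (y : V3) :
    IsPiece φ ψ A false (b + (7 : ℤ) • y) := by
  have h1 := body_line h hb (1, 0, 0) (by decide) (by decide) y.1
  have h2 := body_line h h1 (0, 1, 0) (by decide) (by decide) y.2.1
  have h3 := body_line h h2 (0, 0, 1) (by decide) (by decide) y.2.2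
  convert h3 using 1
  obtain ⟨u, v, w⟩ := y
  simp [Prod.ext_iff]

theorem body_align (h : Tiles (merge φ ψ) A) {b b' : V3} (hb : IsPiece φ ψ A false b)
    (hb' : IsPiece φ ψ A false b') : ∃ y : V3, b' = b + (7 : ℤ) • y := by
  obtain ⟨r, y, hy⟩ := exists_cpos (b' - b + (3, 3, 3))
  rcases mis_spec r with rfl | ⟨r₁, r₂, h2, h1, he, hne⟩
  · refine ⟨y, ?_⟩
    have : cpos (3, 3, 3) = (3, 3, 3) := by decide
    rw [this] at hy
    have h3 : b' - b = (7 : ℤ) • y := by
      have := congrArg (· - ((3, 3, 3) : V3)) hy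
      simpa [add_sub_cancel_right, add_sub_cancel_left] using this
    rw [← h3]; abel
  · exfalso
    apply hne
    refine piece_clash h (b := b + (7 : ℤ) • y) (b' := b') (h1 ▸ body_all h hb y) (h2 ▸ hb') ?_
    rw [he]
    have : b' = cpos r + (7 : ℤ) • y + b - (3, 3, 3) := by rw [← hy]; abel
    rw [this]; abel

theorem merge_rigid (φ ψ : K → V3) : Rigid (merge φ ψ) := by
  intro A h a ha a' ha'
  obtain ⟨⟨k, r⟩, -, -⟩ := h 0
  have h1 : IsPiece φ ψ A false (a + (7 : ℤ) • φ k) := ⟨k, by simpa using ha⟩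
  have h2 : IsPiece φ ψ A false (a' + (7 : ℤ) • φ k) := ⟨k, by simpa using ha'⟩
  obtain ⟨y, hy⟩ := body_align h h1 h2
  refine ⟨y, ?_⟩
  have : a' + (7 : ℤ) • φ k = (a + (7 : ℤ) • y) + (7 : ℤ) • φ k := by rw [hy]; abel
  exact add_right_cancel this

/-- blow-up of a set -/
def blow (c : V3) (A : Set V3) : Set V3 := {x | ∃ a ∈ A, x = c + (7 : ℤ) • a}

theorem mem_blow_iff {c : V3} (r : Cell) (y : V3) (p : K × Cell) :
    c + (rho r + (7 : ℤ) • y) - merge φ ψ p ∈ blow c A ↔
      p.2 = r ∧ y - (if dom r then ψ p.1 else φ p.1) ∈ A := by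
  obtain ⟨k, r'⟩ := p
  constructor
  · rintro ⟨a, ha, he⟩
    have : rho r + (7 : ℤ) • y = rho r' + (7 : ℤ) • ((if dom r' then ψ k else φ k) + a) := by
      simp only [merge] at he
      rw [smul_add]
      have h2 : rho r + (7 : ℤ) • y = c + (rho r + (7 : ℤ) • y)
        - ((7 : ℤ) • (if dom r' then ψ k else φ k) + rho r')
        + ((7 : ℤ) • (if dom r' then ψ k else φ k) + rho r') - c := by abel
      rw [h2, he]; abel
    obtain ⟨h1, h2⟩ := rho_unique this
    subst h1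
    refine ⟨rfl, ?_⟩
    rw [h2]; simpa using ha
  · rintro ⟨h1, h2⟩
    simp only at h1 h2
    subst h1
    refine ⟨_, h2, ?_⟩
    simp only [merge]
    rw [smul_sub]; abel

theorem tiles_blow_iff (c : V3) :
    Tiles (merge φ ψ) (blow c A) ↔ Tiles φ A ∧ Tiles ψ A := by
  constructor
  · intro h
    have key : ∀ r y, ∃! k, y - (if dom r then ψ k else φ k) ∈ A := by
      intro r y
      obtain ⟨⟨k, r'⟩, hk, hu⟩ := h (c + (rho r + (7 : ℤ) • y))
      have hk' := (mem_blow_iff r y _).1 hk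
      refine ⟨k, hk'.2, fun k' hk'' => ?_⟩
      have := hu (k', r) ((mem_blow_iff r y _).2 ⟨rfl, hk''⟩)
      exact (Prod.ext_iff.1 this).1
    constructor
    · intro y
      have := key (3, 3, 3) y
      have hd : dom (3, 3, 3) = false := by decide
      simpa [hd] using this
    · intro y
      have := key (0, 0, 0) y
      have hd : dom (0, 0, 0) = true := by decide
      simpa [hd] using this
  · rintro ⟨h1, h2⟩ x
    obtain ⟨r, y, hy⟩ := exists_rho (x - c)
    have hx : x = c + (rho r + (7 : ℤ) • y) := by rw [← hy]; abel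
    have key : ∃! k, y - (if dom r then ψ k else φ k) ∈ A := by
      cases dom r
      · simpa using h1 y
      · simpa using h2 y
    obtain ⟨k, hk, hu⟩ := key
    refine ⟨(k, r), ?_, ?_⟩
    · rw [hx]; exact (mem_blow_iff r y _).2 ⟨rfl, hk⟩
    · rintro ⟨k', r'⟩ h'
      rw [hx] at h'
      obtain ⟨h3, h4⟩ := (mem_blow_iff r y _).1 h'
      exact Prod.ext (hu k' h4) h3

theorem exists_blow {Φ : K → V3} (hΦ : Rigid Φ) (h : Tiles Φ A) :
    ∃ c A₀, A = blow c A₀ ∧ ∀ g, Per g A → Per g A₀ := by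
  obtain ⟨k, hk, -⟩ := h 0
  set c := 0 - Φ k
  refine ⟨c, {y | c + (7 : ℤ) • y ∈ A}, ?_, ?_⟩
  · ext x
    constructor
    · intro hx
      obtain ⟨y, hy⟩ := hΦ A h c hk x hx
      exact ⟨y, show c + (7 : ℤ) • y ∈ A from hy ▸ hx, hy⟩
    · rintro ⟨a, ha, rfl⟩
      exact ha
  · rintro g ⟨P, hP, hg⟩
    refine ⟨P, hP, fun a ha => ?_⟩
    have h7 : ∀ n : ℕ, c + (7 : ℤ) • a + n • (P • g) ∈ A := by
      intro n
      induction n with
      | zero => simpa using ha
      | succ n ih =>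
        have := hg _ ih
        convert this using 1
        rw [succ_nsmul]; abel
    have := h7 7
    show c + (7 : ℤ) • (a + P • g) ∈ A
    convert this using 1
    rw [smul_add, add_assoc]
    congr 2

end merge

/-- Stacking: a finite nonempty list of tiling equations in ℤ³ becomes one rigid equation. -/
theorem stack_list (g : V3) : ∀ (n : ℕ) (K : Type) [Finite K] (φ : K → V3) (L : List (K → V3)),
    L.length = n → ∃ (K' : Type) (_ : Finite K') (Φ : K' → V3), Rigid Φ ∧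
      ((∃ A, Tiles φ A ∧ ∀ ψ ∈ L, Tiles ψ A) → ∃ A, Tiles Φ A) ∧
      (∀ A', Tiles Φ A' → Per g A' → ∃ A, (Tiles φ A ∧ ∀ ψ ∈ L, Tiles ψ A) ∧ Per g A) := by
  intro n
  induction n with
  | zero =>
    intro K _ φ L hL
    have : L = [] := List.length_eq_zero_iff.1 hL
    subst this
    refine ⟨K × Cell, inferInstance, merge φ φ, merge_rigid φ φ, ?_, ?_⟩
    · rintro ⟨A, hA, -⟩
      exact ⟨blow 0 A, (tiles_blow_iff 0).2 ⟨hA, hA⟩⟩
    · intro A' hA' hP
      obtain ⟨c, A₀, rfl, hper⟩ := exists_blow (merge_rigid φ φ) hA'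
      exact ⟨A₀, ⟨((tiles_blow_iff c).1 hA').1, by simp⟩, hper g hP⟩
  | succ n ih =>
    intro K _ φ L hL
    obtain ⟨ψ, L, rfl⟩ := List.exists_cons_of_length_eq_add_one hL
    obtain ⟨K', hK', Φ, hr, h1, h2⟩ := ih (K × Cell) (merge φ ψ) (L.map fun χ => merge χ χ)
      (by simpa using hL)
    refine ⟨K', hK', Φ, hr, ?_, ?_⟩
    · rintro ⟨A, hA, hL⟩
      refine h1 ⟨blow 0 A, (tiles_blow_iff 0).2 ⟨hA, hL ψ (by simp)⟩, ?_⟩
      intro χ hχ
      obtain ⟨χ', h', rfl⟩ := List.mem_map.1 hχ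
      have := hL χ' (by simp [h'])
      exact (tiles_blow_iff 0).2 ⟨this, this⟩
    · intro A' hA' hP
      obtain ⟨A, ⟨hA, hL⟩, hP'⟩ := h2 A' hA' hP
      obtain ⟨c, A₀, rfl, hper⟩ := exists_blow (merge_rigid φ ψ) hA
      obtain ⟨h3, h4⟩ := (tiles_blow_iff c).1 hA
      refine ⟨A₀, ⟨h3, ?_⟩, hper g hP'⟩
      intro χ hχ
      rcases List.mem_cons.1 hχ with rfl | hχ
      · exact h4
      · exact ((tiles_blow_iff c).1 (hL _ (List.mem_map.2 ⟨χ, hχ, rfl⟩))).1

/-- Pull-back along a surjection with cyclic kernel, followed by stacking. -/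
theorem stack_pullback {G K : Type} [AddCommGroup G] [Finite K] (π : V3 →+ G)
    (hπ : Function.Surjective π) (w : V3) (hw : π w = 0)
    (hker : ∀ x, π x = 0 → ∃ n : ℤ, x = n • w) (g : V3)
    (S : Set (K → G)) (hS : S.Finite) (φ₀ : K → G) (h₀ : φ₀ ∈ S)
    (hex : ∃ A, ∀ φ ∈ S, Tiles φ A) (hap : ∀ A, (∀ φ ∈ S, Tiles φ A) → ¬ Per (π g) A) :
    ∃ (K' : Type) (_ : Finite K') (Φ : K' → V3), Rigid Φ ∧ (∃ A, Tiles Φ A) ∧
      ∀ A, Tiles Φ A → ¬ Per g A := by
  classical
  obtain ⟨s, hs⟩ := hπ.hasRightInverse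
  obtain ⟨A₀, hA₀⟩ := hex
  obtain ⟨k₀, -, -⟩ := hA₀ φ₀ h₀ 0
  let φ₁ : K → V3 := fun k => s (φ₀ k) + if k = k₀ then w else 0
  let L : List (K → V3) := hS.toFinset.toList.map fun φ => s ∘ φ
  have lift : ∀ (φ : K → G) (χ : K → V3), (∀ k, π (χ k) = φ k) → ∀ A : Set G,
      Tiles χ (π ⁻¹' A) ↔ Tiles φ A := by
    intro φ χ hχ A
    constructor
    · intro h x
      have := h (s x)
      simpa [map_sub, hχ, hs x] using this
    · intro h x
      have := h (π x)
      simpa [map_sub, hχ] using this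
  have hφ₁ : ∀ k, π (φ₁ k) = φ₀ k := by
    intro k
    simp only [φ₁, map_add, hs (φ₀ k)]
    split_ifs <;> simp [hw]
  obtain ⟨K', hK', Φ, hr, h1, h2⟩ := stack_list g _ K φ₁ L rfl
  refine ⟨K', hK', Φ, hr, ?_, ?_⟩
  · refine h1 ⟨π ⁻¹' A₀, (lift φ₀ φ₁ hφ₁ A₀).2 (hA₀ φ₀ h₀), ?_⟩
    intro ψ hψ
    obtain ⟨φ, hφ, rfl⟩ := List.mem_map.1 hψ
    have hφS : φ ∈ S := by simpa using hφ
    exact (lift φ _ (fun k => hs _) A₀).2 (hA₀ φ hφS)
  · intro A' hA' hP
    obtain ⟨A, ⟨hA1, hAL⟩, hP'⟩ := h2 A' hA' hP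
    have hAL' : ∀ φ ∈ S, Tiles (s ∘ φ) A := fun φ hφ =>
      hAL _ (List.mem_map.2 ⟨φ, by simpa using hφ, rfl⟩)
    have hA0 := hAL' φ₀ h₀
    have hminus : ∀ a ∈ A, a - w ∈ A := by
      intro a ha
      obtain ⟨k, hk, -⟩ := hA1 (a + s (φ₀ k₀))
      by_cases hkk : k = k₀
      · subst hkk
        convert hk using 1
        simp only [φ₁, if_true]; abel
      · exfalso
        apply hkk
        refine (hA0 (a + s (φ₀ k₀))).unique ?_ ?_
        · simpa [φ₁, hkk] using hk
        · simpa using ha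
    have hplus : ∀ a ∈ A, a + w ∈ A := by
      intro a ha
      obtain ⟨k, hk, -⟩ := hA0 (a + w + s (φ₀ k₀))
      by_cases hkk : k = k₀
      · subst hkk
        simpa using hk
      · exfalso
        apply hkk
        refine (hA1 (a + w + s (φ₀ k₀))).unique ?_ ?_
        · simpa [φ₁, hkk] using hk
        · have : a + w + s (φ₀ k₀) - φ₁ k₀ = a := by simp only [φ₁, if_true]; abel
          rw [this]; exact ha
    have hz : ∀ a ∈ A, ∀ n : ℤ, a + n • w ∈ A := by
      intro a ha n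
      induction n using Int.induction_on with
      | zero => simpa using ha
      | succ n ih => have := hplus _ ih; convert this using 1; rw [add_smul, one_smul]; abel
      | pred n ih => have := hminus _ ih; convert this using 1; rw [sub_smul, one_smul]; abel
    have hA : A = π ⁻¹' (π '' A) := by
      ext x
      constructor
      · intro hx; exact ⟨x, hx, rfl⟩
      · rintro ⟨a, ha, he⟩
        obtain ⟨n, hn⟩ := hker (x - a) (by rw [map_sub, he, sub_self])
        have := hz a ha n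
        rw [← hn] at this
        simpa using this
    refine hap (π '' A) (fun φ hφ => ?_) ?_
    · refine (lift φ (s ∘ φ) (fun k => hs _) _).1 ?_
      rw [← hA]; exact hAL' φ hφ
    · obtain ⟨P, hP0, hP⟩ := hP'
      refine ⟨P, hP0, ?_⟩
      rintro _ ⟨a, ha, rfl⟩
      exact ⟨_, hP a ha, by rw [map_add, map_nsmul]⟩

end Crest.Agent.R046
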